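import Crest.Agent.R12.QA.Tw

/-! Row 12, block QA: cutting the ranges. -/

set_option autoImplicit false

namespace Crest.Agent.R12.QA

open Crest.Agent.R17
open Crest.Agent.R17.M2 (cv Tq Dec Mu)
open scoped ComplexConjugate

theorem cta1_card (Y : ℝ) (hY : 1 ≤ Y) : ((pball Y).card : ℝ) ≤ 11 * Y :=
  le_trans (by
    exact_mod_cast Finset.card_le_card fun n hn => mem_ball.2 (mem_pball.1 hn).1) (card_ball_le hY)

theorem cta1_dv (k : ℕ) : ∃ C : ℝ, 0 < C ∧ ∀ (c : O → ℂ) (Z : ℝ) (n : O), Dv k c → 1 ≤ Z → nm n ≤ Z →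
    ‖c n‖ ≤ C * Z := by
  obtain ⟨C, hC, h⟩ := dn_pow_le k (ε := 1) one_pos
  refine ⟨C + 1, by positivity, fun c Z n hc hZ hn => (hc n).trans ?_⟩
  by_cases h0 : n = 0
  · rw [h0, dn_zero]
    have : (0 : ℝ) ^ k ≤ 1 := pow_le_one₀ le_rfl zero_le_one
    nlinarith
  · have := h n h0
    rw [Real.rpow_one] at this
    nlinarith

/-- counting: if every term has weight at most `w` then the sum is at most `C Y⁵ w`
(`dn_pow_le` with `ε = 1`, `norm_f0_le`, `card_ball_le`) -/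
theorem sum3_le (k : ℕ) : ∃ C : ℝ, 0 ≤ C ∧ ∀ (Y A w : ℝ) (α c : O → ℂ) (F : O → O → O → ℂ), 1 ≤ Y →
    1 ≤ A → A ≤ Y → 0 ≤ w → Dv k α → Dv k c →
    (∀ x m n, α x ≠ 0 → c m ≠ 0 → Prim n → ‖F x m n‖ ≤ w) →
    ‖∑ x ∈ ball (2 * A), ∑ m ∈ pball Y, ∑ n ∈ pball Y, α x * c m * F x m n‖ ≤ C * Y ^ 5 * w := by
  obtain ⟨C, hC, h⟩ := cta1_dv k
  refine ⟨22 * 11 * 11 * (2 * C * C), by positivity, fun Y A w α c F hY hA hAY hw hα hc hF => ?_⟩
  have h1 := card_ball_le (X := 2 * A) (by linarith)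
  have h2 := cta1_card Y hY
  calc _ ≤ ∑ _x ∈ ball (2 * A), ∑ _m ∈ pball Y, ∑ _n ∈ pball Y, C * (2 * Y) * (C * Y) * w := by
        refine norm_sum_le_of_le _ fun x hx => norm_sum_le_of_le _ fun m hm =>
          norm_sum_le_of_le _ fun n hn => ?_
        by_cases hx0 : α x = 0
        · rw [hx0, zero_mul, zero_mul, norm_zero]; positivity
        by_cases hm0 : c m = 0
        · rw [hm0, mul_zero, zero_mul, norm_zero]; positivity
        rw [norm_mul, norm_mul]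
        have a1 := h α (2 * Y) x hα (by linarith) ((mem_ball.1 hx).trans (by linarith))
        have a2 := h c Y m hc hY (mem_pball.1 hm).1
        have a3 := hF x m n hx0 hm0 (mem_pball.1 hn).2
        gcongr
    _ = (ball (2 * A)).card * ((pball Y).card * ((pball Y).card * (C * (2 * Y) * (C * Y) * w))) := by
        simp only [Finset.sum_const, nsmul_eq_mul]
    _ ≤ (22 * Y) * ((11 * Y) * ((11 * Y) * (C * (2 * Y) * (C * Y) * w))) := by
        gcongr
        linarith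
    _ = _ := by ring

theorem cta1_TS (l : ℤ) (a Y A M t : ℝ) (α c : O → ℂ) : TS l a Y A M t α c =
    ∑ x ∈ ball (2 * A), ∑ m ∈ pball Y, ∑ n ∈ pball Y, α x * c m *
      (pl l M t n * f0 (x * m * n) * (LW a Y (nm (x * m * n)) : ℂ)) := by
  simp only [TS, mul_assoc]

theorem cta1_norm (l : ℤ) (a Y M t : ℝ) (n b : O) :
    ‖pl l M t n * f0 b * (LW a Y (nm b) : ℂ)‖ ≤ 3 * (LW 1 M (nm n) * LW a Y (nm b)) := by
  rw [norm_mul, norm_mul, Complex.norm_real, Real.norm_of_nonneg (LW_pos _ _ _).le]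
  have h1 := norm_pl_le l M t n
  have h2 := norm_f0_le b
  have h3 := (LW_pos a Y (nm b)).le
  have h4 := (LW_pos 1 M (nm n)).le
  calc _ ≤ LW 1 M (nm n) * 3 * LW a Y (nm b) := by gcongr
    _ = _ := by ring

theorem TS_triv (k : ℕ) : ∃ C : ℝ, 0 ≤ C ∧ ∀ (l : ℤ) (a Y A M t : ℝ) (α c : O → ℂ), 1 ≤ Y → 1 ≤ A →
    A ≤ Y → Dv k α → Dv k c → ‖TS l a Y A M t α c‖ ≤ C * Y ^ 5 := by
  obtain ⟨C, hC, h⟩ := sum3_le k
  refine ⟨C * 3, by positivity, fun l a Y A M t α c hY hA hAY hα hc => ?_⟩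
  rw [cta1_TS]
  refine (h Y A 3 α c _ hY hA hAY (by norm_num) hα hc fun x m n _ _ _ => ?_).trans_eq (by ring)
  refine (cta1_norm l a Y M t n _).trans ?_
  have := mul_le_one₀ (LW_le_one 1 M (nm n)) (LW_pos a Y (nm (x * m * n))).le (LW_le_one _ _ _)
  linarith

/-- `sum3_le`; either `N n ∉ (M Y^(-ee/3), M Y^(ee/3))` or `N (x m n) ∉ (Y Y^(-ee/3), Y Y^(ee/3))`
(`4 ≤ Y^(ee/3)`); `LW_small` with `J = 5` -/
theorem TS_far (k : ℕ) : ∃ C : ℝ, 0 ≤ C ∧ ∀ (l : ℤ) (a Y α ν μ t : ℝ) (u c : O → ℂ), 2 ≤ Y → 1000 ≤ Y ^ ee →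
    0 < a → a ≤ 1 → 0 ≤ α → α ≤ 1 → Supp u (Y ^ α) (2 * Y ^ α) → Dv k u → Pp (Y ^ ν) c → Dv k c →
    (α + ν + μ ≤ 1 - ee ∨ 1 + ee ≤ α + ν + μ) → ‖TS l a Y (Y ^ α) (Y ^ μ) t u c‖ ≤ C := by
  obtain ⟨C, hC, h⟩ := sum3_le k
  have he := ee_pos
  obtain ⟨D, hD, hL⟩ := LW_small 5 (ee / 3) (by positivity)
  refine ⟨C * (3 * D), by positivity,
    fun l a Y α ν μ t u c hY hbig ha ha1 hα0 hα1 hu huk hc hck hfar => ?_⟩
  have hY1 : 1 ≤ Y := by linarith
  have hY0 : 0 < Y := by linarith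
  have hp : ∀ x : ℝ, 0 < Y ^ x := fun x => Real.rpow_pos_of_pos hY0 x
  have hmono : ∀ {x y : ℝ}, x ≤ y → Y ^ x ≤ Y ^ y := fun hxy => Real.rpow_le_rpow_of_exponent_le hY1 hxy
  have h4 : 4 ≤ Y ^ (ee / 3) := by
    refine le_of_pow_le_pow_left₀ (n := 3) (by norm_num) (hp _).le ?_
    rw [← Real.rpow_natCast (Y ^ (ee / 3)), ← Real.rpow_mul hY0.le]
    have : ee / 3 * ((3 : ℕ) : ℝ) = ee := by push_cast; ring
    rw [this]; linarith
  rw [cta1_TS]
  refine (h Y (Y ^ α) (3 * (D * Y ^ (-5 : ℝ))) u c _ hY1 (Real.one_le_rpow hY1 hα0)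
    (by simpa using hmono hα1) (by have := hp (-5); positivity) huk hck fun x m n hx hm hn => ?_).trans_eq ?_
  · refine (cta1_norm l a Y _ t n _).trans (mul_le_mul_of_nonneg_left ?_ (by norm_num))
    obtain ⟨hx0, hx1, hx2⟩ := hu x hx
    obtain ⟨hm0, hm1, hm2⟩ := hc m hm
    have hn0 : 0 < nm n := nm_pos hn.ne_zero
    by_cases hnear : nm n ≤ Y ^ μ * Y ^ (-(ee / 3)) ∨ Y ^ μ * Y ^ (ee / 3) ≤ nm n
    · exact (mul_le_of_le_one_right (LW_pos _ _ _).le (LW_le_one _ _ _)).trans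
        (hL 1 (Y ^ μ) Y (nm n) one_pos (by norm_num) hY1 (hp μ) hn0 hnear)
    rw [not_or, not_le, not_le] at hnear
    refine (mul_le_of_le_one_left (LW_pos _ _ _).le (LW_le_one _ _ _)).trans
      (hL a Y Y _ ha (by linarith) hY1 hY0
        (nm_pos (mul_ne_zero (mul_ne_zero hx0.1.ne_zero hm0.ne_zero) hn.ne_zero)) ?_)
    rw [nm_mul, nm_mul]
    have a1 := hp α
    have a2 := hp ν
    have a3 := hp μ
    have a4 := hp (ee / 3)
    have a5 := hp (-(ee / 3))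
    rcases hfar with hf | hf
    · refine Or.inl ?_
      calc nm x * nm m * nm n ≤ (2 * Y ^ α) * (2 * Y ^ ν) * (Y ^ μ * Y ^ (ee / 3)) := by
            have := hnear.2.le
            have := nm_nonneg m
            gcongr
        _ = 4 * (Y ^ α * Y ^ ν * Y ^ μ * Y ^ (ee / 3)) := by ring
        _ ≤ Y ^ (ee / 3) * (Y ^ α * Y ^ ν * Y ^ μ * Y ^ (ee / 3)) := by gcongr
        _ = Y ^ (ee / 3 + (α + ν + μ + ee / 3)) := by simp only [Real.rpow_add hY0]
        _ ≤ Y ^ (1 + -(ee / 3)) := hmono (by linarith)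
        _ = _ := by rw [Real.rpow_add hY0, Real.rpow_one]
    · refine Or.inr ?_
      calc Y * Y ^ (ee / 3) = Y ^ (1 + ee / 3) := by rw [Real.rpow_add hY0, Real.rpow_one]
        _ ≤ Y ^ (α + ν + (μ + -(ee / 3))) := hmono (by linarith)
        _ = Y ^ α * Y ^ ν * (Y ^ μ * Y ^ (-(ee / 3))) := by simp only [Real.rpow_add hY0]
        _ ≤ _ := by
            have := hnear.1.le
            have := hx1.le
            have := nm_nonneg x
            have := nm_nonneg m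
            gcongr
  · have : Y ^ 5 * Y ^ (-5 : ℝ) = 1 := by
      rw [← Real.rpow_natCast, ← Real.rpow_add hY0]; norm_num
    calc C * Y ^ 5 * (3 * (D * Y ^ (-5 : ℝ))) = C * (3 * D) * (Y ^ 5 * Y ^ (-5 : ℝ)) := by ring
      _ = _ := by rw [this, mul_one]

theorem ctb1_col {B X Y : ℝ} (hXY : X ≤ Y) (c g W : O → ℂ) (hW : ∀ b, ¬ PSq b → W b = 0) :
    ∑ b ∈ ball X, gam (cv c g) B X b * W b = ∑ m ∈ pball Y, ∑ n ∈ pball Y,
      if B < nm (m * n) ∧ nm (m * n) ≤ X then c m * g n * W (m * n) else 0 := by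
  classical
  have e := sum_anti_ball hXY fun m n => if B < nm (m * n) then c m * g n * W (m * n) else 0
  have e2 : ∀ m n : O, (if nm (m * n) ≤ X then if B < nm (m * n) then c m * g n * W (m * n) else 0 else 0) =
      if B < nm (m * n) ∧ nm (m * n) ≤ X then c m * g n * W (m * n) else 0 := fun m n => by
    by_cases h1 : nm (m * n) ≤ X <;> by_cases h2 : B < nm (m * n) <;> simp [h1, h2]
  simp only [e2] at e
  rw [← e, pball, Finset.sum_filter]
  refine Finset.sum_congr rfl fun b hb => ?_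
  rw [Finset.sum_congr rfl (g := fun p => if B < nm b then c p.1 * g p.2 * W b else 0) fun p hp => by
    rw [(mem_anti.1 hp).2.2]]
  by_cases h : PSq b
  · rw [if_pos h.1, gam]
    by_cases h2 : B < nm b
    · rw [if_pos ⟨h, h2, mem_ball.1 hb⟩, M2.cv, Finset.sum_mul]
      simp only [if_pos h2]
    · rw [if_neg fun h' => h2 h'.2.1]
      simp [h2]
  · simp [hW b h]

/-- In `Bil` the condition `PSq b` can be replaced by `Prim b` (`f0_eq_zero`, `PSq.of_mul_left`); `sum_anti_ball`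
(`X ≤ Y`); the remaining terms have `N (m n) ∉ (B, X]`, hence `N n ≤ M Y^(-ee)` or `M Y^ee ≤ N n`;
`sum3_le`, `LW_small` with `J = 5`. -/
theorem TS_near (k : ℕ) : ∃ C : ℝ, 0 ≤ C ∧ ∀ (l : ℤ) (a Y α ν μ t : ℝ) (u c : O → ℂ),
    Par Y α (ν + μ - ee) → Supp u (Y ^ α) (2 * Y ^ α) → Dv k u → Pp (Y ^ ν) c → Dv k c →
    ‖TS l a Y (Y ^ α) (Y ^ μ) t u c - Bil a Y u
      (gam (cv c (pl l (Y ^ μ) t)) (Y ^ (ν + μ - ee)) (XX Y (ν + μ - ee))) (2 * Y ^ α)
      (XX Y (ν + μ - ee))‖ ≤ C := by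
  classical
  obtain ⟨C₁, hC₁, h₁⟩ := sum3_le k
  obtain ⟨C₂, hC₂, h₂⟩ := LW_small 5 ee ee_pos
  refine ⟨C₁ * (C₂ * 3), by positivity, fun l a Y α ν μ t u c hp hu hdu hc hdc => ?_⟩
  have he := ee_eq
  have hY := hp.pos
  have hXY : XX Y (ν + μ - ee) ≤ Y := hp.le (by linarith [hp.b2])
  obtain ⟨B, hB⟩ : ∃ B, B = Y ^ (ν + μ - ee) := ⟨_, rfl⟩
  obtain ⟨X, hX⟩ : ∃ X, X = XX Y (ν + μ - ee) := ⟨_, rfl⟩
  rw [← hX] at hXY
  rw [← hB, ← hX]
  have key := h₁ Y (Y ^ α) (C₂ * Y ^ (-5 : ℝ) * 3) u c (fun x m n =>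
    if B < nm (m * n) ∧ nm (m * n) ≤ X then 0 else
      pl l (Y ^ μ) t n * f0 (x * m * n) * (LW a Y (nm (x * m * n)) : ℂ)) hp.one
    (hp.one_le (by linarith [hp.a1])) (hp.le (by linarith [hp.a2])) (by positivity) hdu hdc
    fun x m n _ hm hn => by
      split_ifs with h
      · rw [norm_zero]; positivity
      obtain ⟨-, m1, m2⟩ := hc m hm
      have hn0 := nm_pos hn.ne_zero
      have hν : 0 < Y ^ ν := by positivity
      have a1 : LW 1 (Y ^ μ) (nm n) ≤ C₂ * Y ^ (-5 : ℝ) := by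
        refine h₂ 1 _ Y _ one_pos one_le_two hp.one (by positivity) hn0 ?_
        rw [nm_mul, not_and_or, not_lt, not_le] at h
        refine h.imp (fun h => ?_) fun h => ?_
        · have : B = Y ^ ν * (Y ^ μ * Y ^ (-ee)) := by
            rw [hB, ← Real.rpow_add hY, ← Real.rpow_add hY]; congr 1; ring
          rw [this] at h
          exact le_of_mul_le_mul_left ((mul_le_mul_of_nonneg_right m1 hn0.le).trans h) hν
        · have e : X = Y ^ ν * (Y ^ μ * Y ^ ee) * Y ^ ee := by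
            rw [hX, XX, ← Real.rpow_add hY, ← Real.rpow_add hY, ← Real.rpow_add hY]; congr 1; ring
          have b1 : Y ^ ν * (Y ^ μ * Y ^ ee) * 2 ≤ X := by
            rw [e]
            exact mul_le_mul_of_nonneg_left (by linarith [hp.big]) (by positivity)
          have b2 := mul_le_mul_of_nonneg_right m2 hn0.le
          refine le_of_mul_le_mul_left (a := Y ^ ν) ?_ hν
          linarith
      rw [norm_mul, norm_mul, pl, norm_mul, norm_zpow, norm_al hn.ne_zero, one_zpow, one_mul,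
        norm_LN_eq_LW, Complex.norm_real, Real.norm_of_nonneg (LW_pos _ _ _).le]
      exact (mul_le_of_le_one_right (mul_nonneg (LW_pos _ _ _).le (norm_nonneg _)) (LW_le_one _ _ _)).trans
        (mul_le_mul a1 (norm_f0_le _) (norm_nonneg _) (by positivity))
  refine le_trans (le_of_eq (congrArg _ ?_)) (key.trans_eq ?_)
  · rw [TS, Bil, ← Finset.sum_sub_distrib]
    refine Finset.sum_congr rfl fun x _ => ?_
    by_cases hx : u x = 0
    · simp [hx]
    have e := ctb1_col (B := B) hXY c (pl l (Y ^ μ) t)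
      (fun b => u x * f0 (x * b) * (LW a Y (nm (x * b)) : ℂ)) fun b hb => by
        rw [f0_eq_zero fun h => hb (PSq.of_mul_left (hu x hx).1.1 h), mul_zero, zero_mul]
    rw [Finset.sum_congr (s₁ := ball X) rfl (g := fun b => gam (cv c (pl l (Y ^ μ) t)) B X b *
      (u x * f0 (x * b) * (LW a Y (nm (x * b)) : ℂ))) fun b _ => by ring, e, ← Finset.sum_sub_distrib]
    refine Finset.sum_congr rfl fun m _ => ?_
    rw [← Finset.sum_sub_distrib]
    refine Finset.sum_congr rfl fun n _ => ?_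
    rw [mul_assoc x m n]
    split_ifs <;> ring
  · have : Y ^ 5 * Y ^ (-5 : ℝ) = 1 := by
      rw [← Real.rpow_natCast, ← Real.rpow_add hY]; norm_num
    linear_combination C₁ * C₂ * 3 * this

theorem pp_pc (i : ℕ) (c : O → ℂ) : Pp (2 ^ i) (pc i c) := by
  intro n hn
  by_cases h : Prim n ∧ M1.blk n = i
  · obtain ⟨h1, rfl⟩ := h
    exact ⟨h1, M1.blk_le h1.ne_zero, (M1.lt_blk n).le⟩
  · exact absurd (if_neg h) hn

theorem dv_pc {k : ℕ} {c : O → ℂ} (h : Dv k c) (i : ℕ) : Dv k (pc i c) := by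
  intro n
  refine le_trans ?_ (h n)
  unfold pc
  split_ifs
  · exact le_rfl
  · rw [norm_zero]; exact norm_nonneg _

theorem pc_ne_zero {i : ℕ} {c : O → ℂ} {n : O} (h : pc i c n ≠ 0) : c n ≠ 0 := by
  intro h0
  exact h (by simp [pc, h0])

/-- `c m = ∑_{i < nblk Y} pc i c m` on `pball Y` (`M1.blk_lt_nblk`) -/
theorem TS_dy (l : ℤ) (a Y A M t : ℝ) (α c : O → ℂ) :
    TS l a Y A M t α c = ∑ i ∈ Finset.range (M1.nblk Y), TS l a Y A M t α (pc i c) := by
  have key : ∀ m ∈ pball Y, c m = ∑ i ∈ Finset.range (M1.nblk Y), pc i c m := fun m hm => by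
    obtain ⟨h1, h2⟩ := mem_pball.1 hm
    rw [Finset.sum_eq_single_of_mem (f := fun i => pc i c m) (M1.blk m) (Finset.mem_range.2 (M1.blk_lt_nblk h1))
      fun i _ hi => if_neg fun h => hi h.2.symm]
    simp [pc, h2]
  unfold TS
  rw [Finset.sum_comm (s := Finset.range _)]
  refine Finset.sum_congr rfl fun x _ => ?_
  rw [Finset.sum_comm (s := Finset.range _)]
  refine Finset.sum_congr rfl fun m hm => ?_
  rw [Finset.sum_comm (s := Finset.range _)]
  refine Finset.sum_congr rfl fun n _ => ?_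
  rw [key m hm]
  simp only [Finset.mul_sum, Finset.sum_mul]

end Crest.Agent.R12.QA
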