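import Crest.Agent.R12.QA.Gen

/-! Row 12, block QA: the variance. -/

set_option autoImplicit false

namespace Crest.Agent.R12.QA

open Crest.Agent.R17
open Crest.Agent.R17.M2 (cv Tq Dec Mu)
open scoped ComplexConjugate

/-- `card_ball_le`, `dn_le_ee` -/
theorem N2_le (k : ℕ) : ∃ C : ℝ, 0 ≤ C ∧ ∀ (Y X : ℝ) (γ : O → ℂ), 1 ≤ X → X ≤ Y → Dv k γ →
    N2 γ X ≤ C * Y ^ ee * X := by
  obtain ⟨C, hC, H⟩ := dn_le_ee (k * 2)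
  refine ⟨11 * C, by positivity, fun Y X γ hX hXY hγ => ?_⟩
  have hY : 1 ≤ Y := hX.trans hXY
  have h1 : ∀ b ∈ ball X, ‖γ b‖ ^ 2 ≤ C * Y ^ ee := fun b hb => by
    refine le_trans ?_ (H Y b hY ((mem_ball.1 hb).trans hXY))
    rw [pow_mul]
    exact pow_le_pow_left₀ (norm_nonneg _) (hγ b) 2
  refine (Finset.sum_le_card_nsmul _ _ _ h1).trans ?_
  rw [nsmul_eq_mul]
  refine (mul_le_mul_of_nonneg_right (card_ball_le hX) (by positivity)).trans_eq (by ring)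

theorem vra_sum {σ : ℝ} (hσ : 1 < σ) : ∃ C : ℝ, 0 ≤ C ∧ ∀ S : Finset O, ∑ n ∈ S, nm n ^ (-σ) ≤ C :=
  ⟨∑' n : O, nm n ^ (-σ), tsum_nonneg fun n => Real.rpow_nonneg (nm_nonneg n) _, fun S =>
    (summable_nm_rpow hσ).sum_le_tsum S fun n _ => Real.rpow_nonneg (nm_nonneg n) _⟩

/-- the inner sum has at most `11 X / N g` non-zero terms, each `≤ C Y^ee` (`dn n ≤ dn (g n)`);
`∑ N g ^ (-7/4) dn g` converges (`dn_pow_le`, `summable_nm_rpow`) -/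
theorem CR_le (k : ℕ) : ∃ C : ℝ, 0 ≤ C ∧ ∀ (Y B X : ℝ) (γ : O → ℂ), 1 ≤ Y → X ≤ Y → Supp γ B X → Dv k γ →
    CR γ X ≤ C * Y ^ (2 * ee) * X ^ 2 := by
  classical
  obtain ⟨C, hC, H⟩ := dn_le_ee (k + 1)
  obtain ⟨C₁, hC₁, H₁⟩ := dn_pow_le 1 (show (0 : ℝ) < 1 / 4 by norm_num)
  obtain ⟨C₂, hC₂, H₂⟩ := vra_sum (show (1 : ℝ) < 3 / 2 by norm_num)
  refine ⟨C₁ * (11 * C) ^ 2 * C₂, by positivity, fun Y B X γ hY hXY hs hγ => ?_⟩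
  have hY0 : 0 < Y := by linarith
  have h1 : ∀ g ∈ sball X, nm g ^ (1 / 4 : ℝ) * dn g * (∑ n ∈ ball X, ‖γ (g * n)‖ * dn n) ^ 2 ≤
      C₁ * (11 * C) ^ 2 * Y ^ (2 * ee) * X ^ 2 * nm g ^ (-(3 / 2 : ℝ)) := by
    intro g hg
    obtain ⟨hgX, hg⟩ := mem_sball.1 hg
    have hg0 : 0 < nm g := nm_pos hg.ne_zero
    have h2 : ∑ n ∈ ball X, ‖γ (g * n)‖ * dn n ≤ 11 * (X / nm g) * (C * Y ^ ee) := by
      rw [← Finset.sum_filter_of_ne (p := fun n => γ (g * n) ≠ 0) fun n _ h h0 => h (by simp [h0])]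
      have h3 : ∀ n ∈ (ball X).filter fun n => γ (g * n) ≠ 0, ‖γ (g * n)‖ * dn n ≤ C * Y ^ ee := by
        intro n hn
        obtain ⟨h4, -, h5⟩ := hs _ (Finset.mem_filter.1 hn).2
        refine le_trans ?_ (H Y (g * n) hY (h5.trans hXY))
        rw [pow_succ]
        exact mul_le_mul (hγ _) (dn_le_of_dvd h4.ne_zero (dvd_mul_left n g)) (dn_nonneg _)
          (pow_nonneg (dn_nonneg _) _)
      refine (Finset.sum_le_card_nsmul _ _ _ h3).trans ?_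
      rw [nsmul_eq_mul]
      refine mul_le_mul_of_nonneg_right ?_ (by positivity)
      refine le_trans ?_ (card_ball_le ((one_le_div hg0).2 hgX))
      refine Nat.cast_le.2 (Finset.card_le_card fun n hn => mem_ball.2 ?_)
      obtain ⟨-, -, h5⟩ := hs _ (Finset.mem_filter.1 hn).2
      rw [le_div_iff₀ hg0, mul_comm, ← nm_mul]
      exact h5
    have h3 := H₁ g hg.ne_zero
    rw [pow_one] at h3
    have h4 : 0 ≤ ∑ n ∈ ball X, ‖γ (g * n)‖ * dn n :=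
      Finset.sum_nonneg fun n _ => mul_nonneg (norm_nonneg _) (dn_nonneg _)
    calc _ ≤ nm g ^ (1 / 4 : ℝ) * (C₁ * nm g ^ (1 / 4 : ℝ)) * (11 * (X / nm g) * (C * Y ^ ee)) ^ 2 := by
          gcongr
      _ = C₁ * (11 * C) ^ 2 * (Y ^ ee) ^ 2 * X ^ 2 *
          (nm g ^ (1 / 4 : ℝ) * nm g ^ (1 / 4 : ℝ) / nm g ^ 2) := by
          field_simp
      _ = _ := by
          rw [← Real.rpow_natCast (Y ^ ee), ← Real.rpow_mul hY0.le, ← Real.rpow_add hg0,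
            ← Real.rpow_natCast (nm g), ← Real.rpow_sub hg0, mul_comm ee]
          norm_num
  refine (Finset.sum_le_sum h1).trans ?_
  rw [← Finset.mul_sum]
  refine (mul_le_mul_of_nonneg_left (H₂ _) (by positivity)).trans_eq (by ring)

/-- with `m = max (N l) L`: `N l ^ (1/3) m^(-2) ≤ m^(-4/3) ≤ L^(-1/4) N l ^ (-13/12)`, `dn l ^ 2 ≤ C N l ^ (1/24)`,
`summable_nm_rpow` -/
theorem sum_ph_le : ∃ C : ℝ, 0 ≤ C ∧ ∀ Y Ψ X : ℝ, 1 ≤ Y → 0 ≤ Ψ →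
    ∑ l ∈ sball X, dn l ^ 2 * (nm l ^ (1 / 3 : ℝ) * ph1 Y Ψ l + ph2 Y Ψ l) ≤
      C * Ψ * Y ^ (7 / 6 - 525 * ee) := by
  obtain ⟨C₁, hC₁, H₁⟩ := dn_pow_le 2 (show (0 : ℝ) < 1 / 24 by norm_num)
  obtain ⟨C₂, hC₂, H₂⟩ := vra_sum (show (1 : ℝ) < 25 / 24 by norm_num)
  refine ⟨2 * C₁ * C₂, by positivity, fun Y Ψ X hY hΨ => ?_⟩
  have hY0 : 0 < Y := by linarith
  have hL : 1 ≤ LL Y := Real.one_le_rpow hY (by norm_num)
  have h1 : ∀ l ∈ sball X, dn l ^ 2 * (nm l ^ (1 / 3 : ℝ) * ph1 Y Ψ l + ph2 Y Ψ l) ≤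
      2 * C₁ * Ψ * Y ^ (7 / 6 - 525 * ee) * nm l ^ (-(25 / 24 : ℝ)) := by
    intro l hl
    have hl0 := (mem_sball.1 hl).2.ne_zero
    have hn : 0 < nm l := nm_pos hl0
    obtain ⟨m, hm⟩ : ∃ m, m = max (nm l) (LL Y) := ⟨_, rfl⟩
    have hm1 : nm l ≤ m := hm ▸ le_max_left _ _
    have hm2 : LL Y ≤ m := hm ▸ le_max_right _ _
    have hm3 : 1 ≤ m := hL.trans hm2
    have hm0 : 0 < m := by linarith
    have h2 : nm l ^ (1 / 3 : ℝ) * m ^ (-2 : ℝ) ≤ m ^ (-(4 / 3) : ℝ) := by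
      calc _ ≤ m ^ (1 / 3 : ℝ) * m ^ (-2 : ℝ) := by gcongr
        _ = m ^ (1 / 3 + -2 : ℝ) := (Real.rpow_add hm0 _ _).symm
        _ ≤ _ := Real.rpow_le_rpow_of_exponent_le hm3 (by norm_num)
    have h3 : m ^ (-(4 / 3) : ℝ) ≤ Y ^ (-(625 * ee)) * nm l ^ (-(13 / 12) : ℝ) := by
      have e : Y ^ (-(625 * ee)) = LL Y ^ (-(1 / 4) : ℝ) := by
        rw [LL, ← Real.rpow_mul hY0.le, ee_eq]
        norm_num
      rw [e, show (-(4 / 3) : ℝ) = -(1 / 4) + -(13 / 12) by norm_num, Real.rpow_add hm0]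
      exact mul_le_mul (Real.rpow_le_rpow_of_nonpos (by linarith) hm2 (by norm_num))
        (Real.rpow_le_rpow_of_nonpos hn hm1 (by norm_num)) (by positivity) (by positivity)
    have h4 : nm l ^ (1 / 3 : ℝ) * ph1 Y Ψ l + ph2 Y Ψ l ≤
        2 * (Ψ * Y ^ (7 / 6 + 100 * ee)) * (Y ^ (-(625 * ee)) * nm l ^ (-(13 / 12) : ℝ)) := by
      rw [ph1, ph2, ← hm]
      have h5 : 0 ≤ Ψ * Y ^ (7 / 6 + 100 * ee) := by positivity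
      nlinarith [mul_le_mul_of_nonneg_left (h2.trans h3) h5, mul_le_mul_of_nonneg_left h3 h5]
    have h5 : 0 ≤ nm l ^ (1 / 3 : ℝ) * ph1 Y Ψ l + ph2 Y Ψ l := by
      rw [ph1, ph2, ← hm]
      positivity
    calc _ ≤ C₁ * nm l ^ (1 / 24 : ℝ) *
          (2 * (Ψ * Y ^ (7 / 6 + 100 * ee)) * (Y ^ (-(625 * ee)) * nm l ^ (-(13 / 12) : ℝ))) :=
          mul_le_mul (H₁ l hl0) h4 h5 (by positivity)
      _ = 2 * C₁ * Ψ * (Y ^ (7 / 6 + 100 * ee) * Y ^ (-(625 * ee))) *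
          (nm l ^ (1 / 24 : ℝ) * nm l ^ (-(13 / 12) : ℝ)) := by ring
      _ = _ := by
          rw [← Real.rpow_add hY0, ← Real.rpow_add hn]
          congr 2
          · congr 1
            ring
          · norm_num
  refine (Finset.sum_le_sum h1).trans ?_
  rw [← Finset.mul_sum]
  refine (mul_le_mul_of_nonneg_left (H₂ _) (by positivity)).trans_eq (by ring)

theorem vrb_ph1_nonneg {Y Ψ : ℝ} (hY : 0 ≤ Y) (hΨ : 0 ≤ Ψ) (l : O) : 0 ≤ ph1 Y Ψ l := by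
  have h1 : 0 ≤ max (nm l) (LL Y) := le_max_of_le_left (nm_nonneg l)
  unfold ph1
  positivity

theorem vrb_ph2_nonneg {Y Ψ : ℝ} (hY : 0 ≤ Y) (hΨ : 0 ≤ Ψ) (l : O) : 0 ≤ ph2 Y Ψ l := by
  have h1 : 0 ≤ max (nm l) (LL Y) := le_max_of_le_left (nm_nonneg l)
  unfold ph2
  positivity

theorem vrb_CR_nonneg (γ : O → ℂ) (X : ℝ) : 0 ≤ CR γ X :=
  Finset.sum_nonneg fun g _ =>
    mul_nonneg (mul_nonneg (Real.rpow_nonneg (nm_nonneg g) _) (dn_nonneg g)) (sq_nonneg _)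

/-- `StVar` with `a = 1`; `N2_le`, `CR_le`, `sum_ph_le`, `A / B ≤ Y^(4 ee)` -/
theorem vr_le (hV : StVar) (E k : ℕ) : ∃ C : ℝ, 0 ≤ C ∧ ∀ (Y α β Ψ : ℝ) (γ : O → ℂ), Par Y α β → 0 ≤ Ψ →
    Supp γ (Y ^ β) (XX Y β) → Dv k γ →
    RowBd (fun m => ¬ Cube m) γ (XX Y β) (Y ^ β) (KK Y α β) E (ph1 Y Ψ) (ph2 Y Ψ) →
    VR 1 (Y ^ α) γ (XX Y β) ≤ C * (1 + Ψ) * Y ^ (7 / 6 - 500 * ee) := by
  obtain ⟨C₀, hC₀⟩ := hV E k
  obtain ⟨C₁, hC₁0, hC₁⟩ := N2_le k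
  obtain ⟨C₂, hC₂0, hC₂⟩ := CR_le k
  obtain ⟨C₃, hC₃0, hC₃⟩ := sum_ph_le
  refine ⟨max C₀ 0 * (3 * C₁ + C₂ + C₃ + 1), by positivity, ?_⟩
  intro Y α β Ψ γ hP hΨ hS hD hR
  have hY := hP.pos
  have he := ee_eq
  have a1 := hP.a1
  have a2 := hP.a2
  have b1 := hP.b1
  have b2 := hP.b2
  have hA1 : 1 ≤ Y ^ α := hP.one_le (by linarith)
  have hB1 : 1 ≤ Y ^ β := hP.one_le (by linarith)
  have hAB : Y ^ α * Y ^ β = Y ^ (α + β) := (Real.rpow_add hY _ _).symm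
  have hX1 : 1 ≤ XX Y β := hP.one_le (by linarith)
  have hXY : XX Y β ≤ Y := hP.le (by linarith)
  have hK : (Y ^ β) ^ 2 / ((1 : ℝ) ^ 2 * Y ^ α) = KK Y α β := by
    rw [KK, Real.rpow_sub hY, one_pow, one_mul, ← Real.rpow_natCast, ← Real.rpow_mul hY.le]
    norm_num [mul_comm]
  have hp1 := vrb_ph1_nonneg hY.le hΨ
  have hp2 := vrb_ph2_nonneg hY.le hΨ
  have key := hC₀ 1 (Y ^ α) (Y ^ β) (XX Y β) γ (ph1 Y Ψ) (ph2 Y Ψ) hA1 hB1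
    (by rw [hAB, ← Real.rpow_mul hY.le]
        exact Real.rpow_le_one_of_one_le_of_nonpos hP.one (by linarith))
    le_rfl
    (by rw [hAB, ← Real.rpow_mul hY.le]; exact hP.mono (by linarith))
    (by rw [hAB, ← Real.rpow_mul hY.le, mul_assoc, ← Real.rpow_add hY]
        have h1 : XX Y β ≤ Y ^ ((α + β) * (1 / 1000) + β) := hP.mono (by linarith)
        have h2 : 0 ≤ Y ^ ((α + β) * (1 / 1000) + β) := by positivity
        linarith)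
    hS hD hp1 hp2 (by rw [hK]; exact hR)
  set W := Y ^ (7 / 6 - 500 * ee) with hW
  have hW0 : 0 ≤ W := by positivity
  -- the four terms
  have n0 := N2_nonneg γ (XX Y β)
  have c0 := vrb_CR_nonneg γ (XX Y β)
  have t1 : (1 * Y ^ α + Real.sqrt (Y ^ α) + (Y ^ α) ^ (2 / 3 : ℝ)) * N2 γ (XX Y β) ≤ 3 * C₁ * W := by
    have s1 : Real.sqrt (Y ^ α) ≤ Y ^ α := by
      rw [Real.sqrt_eq_rpow, ← Real.rpow_mul hY.le]; exact hP.mono (by linarith)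
    have s2 : (Y ^ α) ^ (2 / 3 : ℝ) ≤ Y ^ α := by
      rw [← Real.rpow_mul hY.le]; exact hP.mono (by linarith)
    have s3 := hC₁ Y (XX Y β) γ hX1 hXY hD
    have s4 : Y ^ α * (Y ^ ee * XX Y β) ≤ W := by
      rw [XX, ← Real.rpow_add hY, ← Real.rpow_add hY]; exact hP.mono (by linarith)
    calc _ ≤ (3 * Y ^ α) * (C₁ * Y ^ ee * XX Y β) :=
          mul_le_mul (by linarith) s3 n0 (by positivity)
      _ = 3 * C₁ * (Y ^ α * (Y ^ ee * XX Y β)) := by ring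
      _ ≤ _ := mul_le_mul_of_nonneg_left s4 (by positivity)
  have t2 : (Y ^ α) ^ (3 / 4 : ℝ) * (Y ^ β) ^ (-(1 / 2) : ℝ) * CR γ (XX Y β) ≤ C₂ * W := by
    have s3 := hC₂ Y (Y ^ β) (XX Y β) γ hP.one hXY hS hD
    have s4 : (Y ^ α) ^ (3 / 4 : ℝ) * (Y ^ β) ^ (-(1 / 2) : ℝ) * (Y ^ (2 * ee) * XX Y β ^ 2) ≤ W := by
      rw [XX, ← Real.rpow_natCast, ← Real.rpow_mul hY.le, ← Real.rpow_mul hY.le, ← Real.rpow_mul hY.le,
        ← Real.rpow_add hY, ← Real.rpow_add hY, ← Real.rpow_add hY]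
      exact hP.mono (by push_cast; linarith)
    calc _ ≤ (Y ^ α) ^ (3 / 4 : ℝ) * (Y ^ β) ^ (-(1 / 2) : ℝ) * (C₂ * Y ^ (2 * ee) * XX Y β ^ 2) :=
          mul_le_mul_of_nonneg_left s3 (by positivity)
      _ = C₂ * ((Y ^ α) ^ (3 / 4 : ℝ) * (Y ^ β) ^ (-(1 / 2) : ℝ) * (Y ^ (2 * ee) * XX Y β ^ 2)) := by ring
      _ ≤ _ := mul_le_mul_of_nonneg_left s4 hC₂0
  have hsum0 : 0 ≤ ∑ l ∈ sball (XX Y β), dn l ^ 2 * (nm l ^ (1 / 3 : ℝ) * ph1 Y Ψ l + ph2 Y Ψ l) := by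
    refine Finset.sum_nonneg fun l _ => ?_
    have := nm_nonneg l
    have := hp1 l
    have := hp2 l
    positivity
  have t3 : OD 1 (Y ^ α) (Y ^ β) (XX Y β) E (ph1 Y Ψ) (ph2 Y Ψ) ≤ C₃ * Ψ * W := by
    have s3 := hC₃ Y Ψ (XX Y β) hP.one hΨ
    have s4 : Y ^ α / Y ^ β * Y ^ (7 / 6 - 525 * ee) ≤ W := by
      rw [← Real.rpow_sub hY, ← Real.rpow_add hY]; exact hP.mono (by linarith)
    rw [OD, one_pow, inv_one, one_mul, one_mul]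
    calc _ ≤ Y ^ α / Y ^ β * (C₃ * Ψ * Y ^ (7 / 6 - 525 * ee)) :=
          mul_le_mul_of_nonneg_left s3 (by positivity)
      _ = C₃ * Ψ * (Y ^ α / Y ^ β * Y ^ (7 / 6 - 525 * ee)) := by ring
      _ ≤ _ := mul_le_mul_of_nonneg_left s4 (by positivity)
  have t30 : 0 ≤ OD 1 (Y ^ α) (Y ^ β) (XX Y β) E (ph1 Y Ψ) (ph2 Y Ψ) := by
    rw [OD]; positivity
  have t4 : (Y ^ α) ^ (2 / 3 : ℝ) * (Y ^ β) ^ (5 / 3 : ℝ) * (Y ^ α * Y ^ β) ^ (-(1 / 100) : ℝ) ≤ W := by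
    rw [hAB, ← Real.rpow_mul hY.le, ← Real.rpow_mul hY.le, ← Real.rpow_mul hY.le,
      ← Real.rpow_add hY, ← Real.rpow_add hY]
    exact hP.mono (by linarith)
  refine key.trans ?_
  set T := (1 * Y ^ α + Real.sqrt (Y ^ α) + (Y ^ α) ^ (2 / 3 : ℝ)) * N2 γ (XX Y β) +
      (Y ^ α) ^ (3 / 4 : ℝ) * (Y ^ β) ^ (-(1 / 2) : ℝ) * CR γ (XX Y β) +
      OD 1 (Y ^ α) (Y ^ β) (XX Y β) E (ph1 Y Ψ) (ph2 Y Ψ) +
      (Y ^ α) ^ (2 / 3 : ℝ) * (Y ^ β) ^ (5 / 3 : ℝ) * (Y ^ α * Y ^ β) ^ (-(1 / 100) : ℝ) with hT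
  have hT0 : 0 ≤ T := by rw [hT]; positivity
  have hT1 : T ≤ (3 * C₁ + C₂ + C₃ + 1) * (1 + Ψ) * W := by
    have u1 : 0 ≤ (3 * C₁ + C₂ + 1) * Ψ * W := by positivity
    have u2 : 0 ≤ C₃ * W := by positivity
    rw [hT]
    nlinarith
  calc C₀ * T ≤ max C₀ 0 * T := mul_le_mul_of_nonneg_right (le_max_left _ _) hT0
    _ ≤ max C₀ 0 * ((3 * C₁ + C₂ + C₃ + 1) * (1 + Ψ) * W) :=
        mul_le_mul_of_nonneg_left hT1 (le_max_right _ _)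
    _ = _ := by ring

/-- `bil_sep`; for each `τ`: `cs_VR`, `N2_le` (`2 A ≤ Y`), `vr_le` for `tw γ B τ` with `Ψ (1 + |τ|)^E`
(`rowBd_tw`, `norm_tw`, `Supp.mul`), `√x ≤ x` for `x ≥ 1`. -/
theorem bil_le (hV : StVar) (E k : ℕ) : ∃ C : ℝ, 0 ≤ C ∧ ∀ (Y α β Ψ a : ℝ) (u γ : O → ℂ), Par Y α β →
    0 ≤ Ψ → 0 < a → a ≤ 1 → Supp u (Y ^ α) (2 * Y ^ α) → Dv k u → Supp γ (Y ^ β) (XX Y β) → Dv k γ →
    RowBd (fun m => ¬ Cube m) γ (XX Y β) (Y ^ β) (KK Y α β) E (ph1 Y Ψ) (ph2 Y Ψ) →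
    ‖Bil a Y u γ (2 * Y ^ α) (XX Y β)‖ ≤ C * (1 + Ψ) * (a ^ E)⁻¹ * Y ^ (5 / 6 - 240 * ee) := by
  obtain ⟨C₀, hC₀0, hC₀⟩ := vr_le hV E k
  obtain ⟨C₁, hC₁0, hC₁⟩ := N2_le k
  obtain ⟨C₂, hC₂0, hC₂⟩ := bil_sep E
  refine ⟨C₂ * Real.sqrt (4 * C₁ * C₀), by positivity, ?_⟩
  intro Y α β Ψ a u γ hP hΨ ha ha1 hSu hDu hS hD hR
  have hY := hP.pos
  have he := ee_eq
  have a1 := hP.a1
  have a2 := hP.a2
  have b1 := hP.b1
  have b2 := hP.b2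
  have hA1 : 1 ≤ Y ^ α := hP.one_le (by linarith)
  have hA0 : 0 < Y ^ α := by positivity
  have hB0 : 0 < Y ^ β := by positivity
  have h2A : 2 * Y ^ α ≤ Y := by
    have s1 : Y ^ ee * Y ^ α ≤ Y := by rw [← Real.rpow_add hY]; exact hP.le (by linarith)
    have s2 := hP.big
    nlinarith
  have key := hC₂ a Y (Y ^ β) (Real.sqrt (4 * C₁ * C₀) * (1 + Ψ) * Y ^ (5 / 6 - 240 * ee)) (2 * Y ^ α)
    (XX Y β) u γ ha ha1 hY hB0 ?_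
  · exact key.trans (le_of_eq (by ring))
  intro τ
  set w : ℝ := (1 + |τ|) ^ E with hw
  have hw1 : 1 ≤ w := one_le_pow₀ (by linarith [abs_nonneg τ])
  have hSu' : Supp (tw u 1 τ) (Y ^ α) (2 * Y ^ α) := hSu.mul _
  have hS' : Supp (tw γ (Y ^ β) τ) (Y ^ β) (XX Y β) := hS.mul _
  have hDu' : Dv k (tw u 1 τ) := fun b => (norm_tw one_pos u τ b).trans (hDu b)
  have hD' : Dv k (tw γ (Y ^ β) τ) := fun b => (norm_tw hB0 γ τ b).trans (hD b)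
  have hR' := rowBd_tw hR hB0 (by unfold KK; positivity) (vrb_ph1_nonneg hY.le hΨ)
    (vrb_ph2_nonneg hY.le hΨ) τ
  have e1 : (fun l => (1 + |τ|) ^ E * ph1 Y Ψ l) = ph1 Y (w * Ψ) := by
    funext l; simp only [ph1, hw]; ring
  have e2 : (fun l => (1 + |τ|) ^ E * ph2 Y Ψ l) = ph2 Y (w * Ψ) := by
    funext l; simp only [ph2, hw]; ring
  rw [e1, e2] at hR'
  have s1 := hC₀ Y α β (w * Ψ) _ hP (by positivity) hS' hD' hR'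
  have s2 := hC₁ Y (2 * Y ^ α) _ (by linarith) h2A hDu'
  have s3 := cs_VR hA0 hSu' hS'
  have n0 := N2_nonneg (tw u 1 τ) (2 * Y ^ α)
  set V := Y ^ (5 / 6 - 240 * ee) with hVd
  have hV0 : 0 ≤ V := by positivity
  have s4 : Y ^ ee * Y ^ α * Y ^ (7 / 6 - 500 * ee) ≤ V ^ 2 := by
    rw [hVd, ← Real.rpow_natCast, ← Real.rpow_mul hY.le, ← Real.rpow_add hY, ← Real.rpow_add hY]
    exact hP.mono (by push_cast; linarith)
  have s5 : 1 + w * Ψ ≤ ((1 + Ψ) * w) ^ 2 := by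
    have r1 : 1 + w * Ψ ≤ (1 + Ψ) * w := by nlinarith
    have r2 : 1 ≤ (1 + Ψ) * w := by nlinarith
    nlinarith
  refine (pow_le_pow_iff_left₀ (norm_nonneg _) (by positivity) two_ne_zero).1 ?_
  · calc _ ≤ 2 * N2 (tw u 1 τ) (2 * Y ^ α) * VR 1 (Y ^ α) (tw γ (Y ^ β) τ) (XX Y β) := s3
      _ ≤ 2 * N2 (tw u 1 τ) (2 * Y ^ α) * (C₀ * (1 + w * Ψ) * Y ^ (7 / 6 - 500 * ee)) :=
        mul_le_mul_of_nonneg_left s1 (by positivity)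
      _ ≤ 2 * (C₁ * Y ^ ee * (2 * Y ^ α)) * (C₀ * (1 + w * Ψ) * Y ^ (7 / 6 - 500 * ee)) :=
        mul_le_mul_of_nonneg_right (by linarith) (by positivity)
      _ = 4 * C₁ * C₀ * ((1 + w * Ψ) * (Y ^ ee * Y ^ α * Y ^ (7 / 6 - 500 * ee))) := by ring
      _ ≤ 4 * C₁ * C₀ * (((1 + Ψ) * w) ^ 2 * V ^ 2) :=
        mul_le_mul_of_nonneg_left (mul_le_mul s5 s4 (by positivity) (by positivity)) (by positivity)
      _ = _ := by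
        rw [mul_pow, mul_pow, mul_pow, mul_pow, Real.sq_sqrt (by positivity)]; ring

end Crest.Agent.R12.QA
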