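import Crest.Agent.R12.QA.Row
import Crest.Agent.R12.QA.Var
import Crest.Agent.R12.QA.Cut

/-! Row 12, block QA: `StBa`. -/

set_option autoImplicit false

namespace Crest.Agent.R12

open Crest.Agent.R17
open Crest.Agent.R17.M2 (cv Tq Dec Mu)
open scoped ComplexConjugate

namespace QA

theorem dv_succ {k : ℕ} {u : O → ℂ} {A X : ℝ} (hs : Supp u A X) (h : Dv k u) : Dv (k + 1) u := by
  intro b
  by_cases hb : u b = 0
  · rw [hb, norm_zero]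
    exact pow_nonneg (dn_nonneg b) _
  · exact (h b).trans (pow_le_pow_right₀ (one_le_dn (hs b hb).1.ne_zero) (Nat.le_succ k))

/-- one dyadic piece -/
theorem piece_le (h1 : StVar) (h2 : StAll) (h3 : StAllG) (h4 : StMom) (l : ℤ) : ∃ E : ℕ, ∀ k : ℕ, ∃ C : ℝ,
    0 ≤ C ∧ ∀ (a Y α ν μ t : ℝ) (u c : O → ℂ), 2 ≤ Y → 1000 ≤ Y ^ ee → 0 < a → a ≤ 1 → 1 / 2 - ee ≤ α →
    α ≤ 1 / 2 + ee → 0 ≤ ν → ν ≤ 246 / 1000 → Supp u (Y ^ α) (2 * Y ^ α) → Dv k u → Pp (Y ^ ν) c → Dv k c →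
    ‖TS l a Y (Y ^ α) (Y ^ μ) t u c‖ ≤ C * (1 + |t|) ^ E * (a ^ E)⁻¹ * Y ^ (5 / 6 - 240 * ee) := by
  obtain ⟨E, hE⟩ := rowBd h2 h3 h4 l
  refine ⟨E, fun k => ?_⟩
  obtain ⟨C₁, hC₁, H₁⟩ := hE k
  obtain ⟨C₂, hC₂, H₂⟩ := bil_le h1 E (k + 1)
  obtain ⟨C₃, hC₃, H₃⟩ := TS_near k
  obtain ⟨C₄, hC₄, H₄⟩ := TS_far k
  refine ⟨C₂ * (1 + C₁) + C₃ + C₄, by positivity,
    fun a Y α ν μ t u c hY hbig ha ha1 hα1 hα2 hν hν' hu hdu hc hdc => ?_⟩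
  have he := ee_eq
  have hT : 1 ≤ (1 + |t|) ^ E := one_le_pow₀ (by linarith [abs_nonneg t])
  have hA : 1 ≤ (a ^ E)⁻¹ := (one_le_inv₀ (pow_pos ha E)).2 (pow_le_one₀ ha.le ha1)
  have hP : 1 ≤ Y ^ (5 / 6 - 240 * ee) := Real.one_le_rpow (by linarith) (by linarith)
  by_cases hf : α + ν + μ ≤ 1 - ee ∨ 1 + ee ≤ α + ν + μ
  · have h5 := H₄ l a Y α ν μ t u c hY hbig ha ha1 (by linarith) (by linarith) hu hdu hc hdc hf
    generalize (1 + |t|) ^ E = T at *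
    generalize (a ^ E)⁻¹ = A at *
    generalize Y ^ (5 / 6 - 240 * ee) = P at *
    have hW : 1 ≤ T * A * P := one_le_mul_of_one_le_of_one_le (one_le_mul_of_one_le_of_one_le hT hA) hP
    calc _ ≤ C₄ := h5
      _ ≤ C₄ * (T * A * P) := le_mul_of_one_le_right hC₄ hW
      _ ≤ (C₂ * (1 + C₁) + C₃ + C₄) * (T * A * P) := by
        refine mul_le_mul_of_nonneg_right ?_ (by linarith)
        have : 0 ≤ C₂ * (1 + C₁) := by positivity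
        linarith
      _ = _ := by ring
  · push Not at hf
    have hp : Par Y α (ν + μ - ee) := ⟨hY, hbig, hα1, hα2, by linarith [hf.1], by linarith [hf.2]⟩
    have h5 := H₃ l a Y α ν μ t u c hp hu hdu hc hdc
    have h6 := H₂ Y α (ν + μ - ee) (C₁ * (1 + |t|) ^ E) a u _ hp (by positivity) ha ha1 hu
      (dv_succ hu hdu) (supp_gam _ _ _) (dv_gam hdc l _ t _ _) (H₁ Y α ν μ t c hp hν hν' hc hdc)
    have h7 := (norm_le_norm_add_norm_sub' _ _).trans (add_le_add h6 h5)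
    generalize (1 + |t|) ^ E = T at *
    generalize (a ^ E)⁻¹ = A at *
    generalize Y ^ (5 / 6 - 240 * ee) = P at *
    have hW : 1 ≤ T * A * P := one_le_mul_of_one_le_of_one_le (one_le_mul_of_one_le_of_one_le hT hA) hP
    have hAP : 0 ≤ A * P := by positivity
    have h8 : C₂ * (1 + C₁ * T) * A * P ≤ C₂ * (1 + C₁) * (T * A * P) := by
      have : C₂ * (1 + C₁ * T) ≤ C₂ * (1 + C₁) * T := by nlinarith
      calc _ = C₂ * (1 + C₁ * T) * (A * P) := by ring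
        _ ≤ C₂ * (1 + C₁) * T * (A * P) := mul_le_mul_of_nonneg_right this hAP
        _ = _ := by ring
    have h9 : C₃ ≤ C₃ * (T * A * P) := le_mul_of_one_le_right hC₃ hW
    have h10 : 0 ≤ C₄ * (T * A * P) := by positivity
    calc _ ≤ _ := h7
      _ ≤ (C₂ * (1 + C₁) + C₃ + C₄) * (T * A * P) := by linarith
      _ = _ := by ring

/-- large `Y` -/
theorem large_le (h1 : StVar) (h2 : StAll) (h3 : StAllG) (h4 : StMom) (l : ℤ) : ∃ E : ℕ, ∀ k : ℕ, ∃ C : ℝ,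
    0 ≤ C ∧ ∀ (a Y α μ t : ℝ) (u c : O → ℂ), 2 ≤ Y → 1000 ≤ Y ^ ee → 0 < a → a ≤ 1 → 1 / 2 - ee ≤ α →
    α ≤ 1 / 2 + ee → Supp u (Y ^ α) (2 * Y ^ α) → Dv k u → Dv k c →
    (∀ n, c n ≠ 0 → nm n ≤ Y ^ (246 / 1000 : ℝ)) →
    ‖TS l a Y (Y ^ α) (Y ^ μ) t u c‖ ≤ C * (1 + |t|) ^ E * (a ^ E)⁻¹ * Y ^ (5 / 6 - 239 * ee) := by
  obtain ⟨E, hE⟩ := piece_le h1 h2 h3 h4 l
  refine ⟨E, fun k => ?_⟩
  obtain ⟨C₁, hC₁, H₁⟩ := hE k
  obtain ⟨C₃, hC₃, H₃⟩ := M1.nblk_le ee_pos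
  refine ⟨C₃ * C₁, by positivity, fun a Y α μ t u c hY hbig ha ha1 hα1 hα2 hu hdu hdc hc => ?_⟩
  have hY1 : 1 < Y := by linarith
  have hY0 : 0 < Y := by linarith
  have hb : ∀ i ∈ Finset.range (M1.nblk Y), ‖TS l a Y (Y ^ α) (Y ^ μ) t u (pc i c)‖ ≤
      C₁ * (1 + |t|) ^ E * (a ^ E)⁻¹ * Y ^ (5 / 6 - 240 * ee) := by
    intro i _
    by_cases h0 : ∀ n, pc i c n = 0
    · have : TS l a Y (Y ^ α) (Y ^ μ) t u (pc i c) = 0 := by simp [TS, h0]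
      rw [this, norm_zero]
      positivity
    · push Not at h0
      obtain ⟨n, hn⟩ := h0
      obtain ⟨ν, hν⟩ : ∃ ν : ℝ, (2 : ℝ) ^ i = Y ^ ν :=
        ⟨Real.logb Y (2 ^ i), (Real.rpow_logb hY0 hY1.ne' (by positivity)).symm⟩
      have hp := pp_pc i c
      rw [hν] at hp
      have h5 : Y ^ (0 : ℝ) ≤ Y ^ ν := by
        rw [← hν, Real.rpow_zero]
        exact one_le_pow₀ one_le_two
      have h6 : Y ^ ν ≤ Y ^ (246 / 1000 : ℝ) := (hp n hn).2.1.trans (hc n (pc_ne_zero hn))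
      exact H₁ a Y α ν μ t u _ hY hbig ha ha1 hα1 hα2 ((Real.rpow_le_rpow_left_iff hY1).1 h5)
        ((Real.rpow_le_rpow_left_iff hY1).1 h6) hu hdu hp (dv_pc hdc i)
  rw [TS_dy]
  calc _ ≤ _ := norm_sum_le _ _
    _ ≤ _ := Finset.sum_le_card_nsmul _ _ _ hb
    _ = (M1.nblk Y : ℝ) * (C₁ * (1 + |t|) ^ E * (a ^ E)⁻¹ * Y ^ (5 / 6 - 240 * ee)) := by
      rw [Finset.card_range, nsmul_eq_mul]
    _ ≤ C₃ * Y ^ ee * (C₁ * (1 + |t|) ^ E * (a ^ E)⁻¹ * Y ^ (5 / 6 - 240 * ee)) :=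
      mul_le_mul_of_nonneg_right (H₃ Y hY1.le) (by positivity)
    _ = _ := by
      rw [show 5 / 6 - 239 * ee = ee + (5 / 6 - 240 * ee) by ring, Real.rpow_add hY0]
      ring

end QA

open QA in
theorem stBa (h1 : StVar) (h2 : StAll) (h3 : StAllG) (h4 : StMom) : StBa := by
  intro l
  obtain ⟨E, hE⟩ := large_le h1 h2 h3 h4 l
  have he := ee_eq
  have he0 := ee_pos
  have hη : ee / (E + 1) ≤ ee := div_le_self he0.le (by linarith [(Nat.cast_nonneg E : (0 : ℝ) ≤ E)])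
  have hη0 : 0 < ee / (E + 1) := by positivity
  refine ⟨ee / (E + 1), 200 * ee, hη0, by positivity, fun k => ?_⟩
  obtain ⟨C₁, hC₁, H₁⟩ := hE k
  obtain ⟨C₂, hC₂, H₂⟩ := TS_triv k
  obtain ⟨Y₀, hY₀, hY₀'⟩ : ∃ Y₀ : ℝ, 0 ≤ Y₀ ∧ ∀ Y : ℝ, 0 ≤ Y → Y ^ ee ≤ 1000 → Y ≤ Y₀ :=
    ⟨1000 ^ ee⁻¹, by positivity, fun Y hY h => by
      rw [← Real.rpow_rpow_inv hY he0.ne']
      exact Real.rpow_le_rpow (Real.rpow_nonneg hY _) h (by positivity)⟩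
  refine ⟨C₁ + C₂ * Y₀ ^ 5 + E, fun Y a A M t α c hY ha ha1 hA1 hA2 hM hα hdα hdc hc => ?_⟩
  change ‖TS l a Y A M t α c‖ ≤ _
  have hY1 : 1 < Y := by linarith
  have hY0 : 0 < Y := by linarith
  have ha0 : 0 < a := (Real.rpow_pos_of_pos hY0 _).trans_le ha
  have hA0 : 0 < A := (Real.rpow_pos_of_pos hY0 _).trans_le hA1
  have ht : 1 ≤ 1 + |t| := by linarith [abs_nonneg t]
  have hE0 : (0 : ℝ) ≤ E := Nat.cast_nonneg E
  have hC5 : 0 ≤ C₂ * Y₀ ^ 5 := by positivity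
  by_cases hbig : 1000 ≤ Y ^ ee
  · obtain ⟨α', rfl⟩ : ∃ α' : ℝ, A = Y ^ α' := ⟨Real.logb Y A, (Real.rpow_logb hY0 hY1.ne' hA0).symm⟩
    obtain ⟨μ, rfl⟩ : ∃ μ : ℝ, M = Y ^ μ := ⟨Real.logb Y M, (Real.rpow_logb hY0 hY1.ne' hM).symm⟩
    have h5 := (Real.rpow_le_rpow_left_iff hY1).1 hA1
    have h6 := (Real.rpow_le_rpow_left_iff hY1).1 hA2
    have h7 := H₁ a Y α' μ t α c hY hbig ha0 ha1 (by linarith) (by linarith) hα hdα hdc hc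
    have h8 : (a ^ E)⁻¹ ≤ Y ^ ee := by
      have h9 : (Y ^ (-(ee / (E + 1)))) ^ E ≤ a ^ E := pow_le_pow_left₀ (by positivity) ha E
      refine (inv_anti₀ (by positivity) h9).trans ?_
      rw [← Real.rpow_natCast, ← Real.rpow_mul hY0.le, ← Real.rpow_neg hY0.le]
      refine Real.rpow_le_rpow_of_exponent_le hY1.le ?_
      rw [neg_mul, neg_neg, div_mul_eq_mul_div, div_le_iff₀ (by positivity)]
      nlinarith
    have h10 : (1 + |t|) ^ E ≤ (1 + |t|) ^ (C₁ + C₂ * Y₀ ^ 5 + E) := by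
      rw [← Real.rpow_natCast]
      exact Real.rpow_le_rpow_of_exponent_le ht (by linarith)
    calc _ ≤ _ := h7
      _ ≤ (C₁ + C₂ * Y₀ ^ 5 + E) * (1 + |t|) ^ (C₁ + C₂ * Y₀ ^ 5 + E) * Y ^ ee * Y ^ (5 / 6 - 239 * ee) := by
        gcongr
        linarith
      _ ≤ _ := by
        rw [mul_assoc _ (Y ^ ee), ← Real.rpow_add hY0]
        exact mul_le_mul_of_nonneg_left (Real.rpow_le_rpow_of_exponent_le hY1.le (by linarith))
          (by positivity)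
  · have h5 : Y ≤ Y₀ := hY₀' Y hY0.le (not_le.1 hbig).le
    have h6 : 1 ≤ A := (Real.one_le_rpow hY1.le (by linarith)).trans hA1
    have h7 : A ≤ Y := by
      refine hA2.trans ?_
      simpa using Real.rpow_le_rpow_of_exponent_le hY1.le (show 1 / 2 + ee / (E + 1) ≤ 1 by linarith)
    have h8 := H₂ l a Y A M t α c hY1.le h6 h7 hdα hdc
    have h9 : 1 ≤ (1 + |t|) ^ (C₁ + C₂ * Y₀ ^ 5 + E) := Real.one_le_rpow ht (by linarith)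
    have h10 : 1 ≤ Y ^ (5 / 6 - 200 * ee) := Real.one_le_rpow hY1.le (by linarith)
    calc _ ≤ C₂ * Y ^ 5 := h8
      _ ≤ C₂ * Y₀ ^ 5 := by gcongr
      _ ≤ (C₁ + C₂ * Y₀ ^ 5 + E) * 1 * 1 := by linarith
      _ ≤ _ := by gcongr

end Crest.Agent.R12
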