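import Crest.Agent.R12.Iface
import Crest.Agent.R12.Base.Lab
import Crest.Agent.R12.Base.Sep

/-!
Row 12, block QA (owner helper15): definitions.  FROZEN.

All sizes are powers of `Y`: rows `A = Y^α`, columns in `(B, X]` with `B = Y^β`, `X = XX Y β`, dual length
`K = KK Y α β = B²/A`, labels are small below `L = LL Y`; `ee` is the unit of loss.  The column is
`gam (cv c (pl l M t)) B X` with `c` on `[N₀, 2 N₀]`, `N₀ = Y^ν`, `M = Y^μ`, `β = ν + μ - ee`.
Recipe for size inequalities: write every power as one `Y ^ (…)` (`Real.rpow_add`, `Real.rpow_mul`,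
`Real.mul_rpow`, `Real.rpow_natCast`), then `Par.mono` and `linarith` (after `unfold ee` or with `ee_eq`);
numerical constants are absorbed in `C`, divisor functions by `dn_pow_le` with `ε = ee`.
Files: `Base/Lab` (labels and squarefreeness), `Base/Sep` (twists, separation of variables), both shared with QB;
`Gen` (general row bounds), `Tw` (twists, tails), `Mom` (moments), `Row` (`RowBd`), `Var` (variance), `Cut`, `Main`.
-/

set_option autoImplicit false

namespace Crest.Agent.R12.QA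

open Crest.Agent.R17
open Crest.Agent.R17.M2 (cv Tq Dec Mu)
open scoped ComplexConjugate

/-- the unit of loss -/
noncomputable def ee : ℝ := 1 / 10 ^ 7

theorem ee_eq : ee = 1 / 10000000 := by norm_num [ee]

theorem ee_pos : 0 < ee := by norm_num [ee]

/-- the bound for small labels -/
noncomputable def LL (Y : ℝ) : ℝ := Y ^ (1 / 4000 : ℝ)

/-- the end of the column range -/
noncomputable def XX (Y β : ℝ) : ℝ := Y ^ (β + 3 * ee)

/-- the dual length -/
noncomputable def KK (Y α β : ℝ) : ℝ := Y ^ (2 * β - α)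

/-- the ranges of the exponents -/
structure Par (Y α β : ℝ) : Prop where
  two : 2 ≤ Y
  big : 1000 ≤ Y ^ ee
  a1 : 1 / 2 - ee ≤ α
  a2 : α ≤ 1 / 2 + ee
  b1 : 1 / 2 - 3 * ee ≤ β
  b2 : β ≤ 1 / 2 + ee

theorem Par.one {Y α β : ℝ} (h : Par Y α β) : 1 ≤ Y := by linarith [h.two]

theorem Par.pos {Y α β : ℝ} (h : Par Y α β) : 0 < Y := by linarith [h.two]

theorem Par.mono {Y α β : ℝ} (h : Par Y α β) {x y : ℝ} (hxy : x ≤ y) : Y ^ x ≤ Y ^ y :=
  Real.rpow_le_rpow_of_exponent_le h.one hxy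

theorem Par.one_le {Y α β : ℝ} (h : Par Y α β) {x : ℝ} (hx : 0 ≤ x) : 1 ≤ Y ^ x :=
  Real.one_le_rpow h.one hx

theorem Par.le {Y α β : ℝ} (h : Par Y α β) {x : ℝ} (hx : x ≤ 1) : Y ^ x ≤ Y := by
  simpa using h.mono hx

/-- supported on primary elements of norm in `[N, 2 N]` -/
def Pp (N : ℝ) (c : O → ℂ) : Prop := ∀ n, c n ≠ 0 → Prim n ∧ N ≤ nm n ∧ nm n ≤ 2 * N

/-- the weight of `φ₂` in `RowBd` -/
noncomputable def wv (v : ℝ) : ℝ := v ^ (1 / 2 : ℝ) + v ^ (5 / 2 : ℝ)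

noncomputable def ph1 (Y Ψ : ℝ) (l : O) : ℝ :=
  Ψ * Y ^ (7 / 6 + 100 * ee) * max (nm l) (LL Y) ^ (-2 : ℝ)

noncomputable def ph2 (Y Ψ : ℝ) (l : O) : ℝ :=
  Ψ * Y ^ (7 / 6 + 100 * ee) * max (nm l) (LL Y) ^ (-(4 / 3) : ℝ)

/-- the sum of `StBa` -/
noncomputable def TS (l : ℤ) (a Y A M t : ℝ) (α c : O → ℂ) : ℂ :=
  ∑ x ∈ ball (2 * A), ∑ n₀ ∈ pball Y, ∑ n ∈ pball Y, α x * c n₀ * pl l M t n *
    f0 (x * n₀ * n) * (LW a Y (nm (x * n₀ * n)) : ℂ)

open Classical in
/-- a dyadic piece -/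
noncomputable def pc (i : ℕ) (c : O → ℂ) (n : O) : ℂ := if Prim n ∧ M1.blk n = i then c n else 0

end Crest.Agent.R12.QA
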