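import Crest.Agent.R12.QA.Defs

/-! Row 12, block QA: general row bounds. -/

set_option autoImplicit false

namespace Crest.Agent.R12.QA

open Crest.Agent.R17
open Crest.Agent.R17.M2 (cv Tq Dec Mu)
open scoped ComplexConjugate

theorem wv_nonneg {v : ℝ} (hv : 0 ≤ v) : 0 ≤ wv v := by
  unfold wv
  positivity

theorem rpow_le_wv {v θ : ℝ} (hv : 0 < v) (h1 : 1 / 2 ≤ θ) (h2 : θ ≤ 5 / 2) : v ^ θ ≤ wv v := by
  unfold wv
  have h3 : 0 ≤ v ^ (1 / 2 : ℝ) := by positivity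
  have h4 : 0 ≤ v ^ (5 / 2 : ℝ) := by positivity
  rcases le_total v 1 with h | h
  · linarith [Real.rpow_le_rpow_of_exponent_ge hv h h1]
  · linarith [Real.rpow_le_rpow_of_exponent_le h h2]

theorem gna_sq {v θ : ℝ} (hv : 0 < v) (h1 : 1 ≤ θ) (h2 : θ ≤ 5) : v ^ θ ≤ wv v ^ 2 := by
  have h := rpow_le_wv (θ := θ / 2) hv (by linarith) (by linarith)
  have e : v ^ θ = (v ^ (θ / 2)) ^ 2 := by
    rw [← Real.rpow_natCast, ← Real.rpow_mul hv.le]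
    congr 1
    push_cast
    ring
  rw [e]
  exact pow_le_pow_left₀ (by positivity) h 2

/-- all four exponents lie in `[1, 3]` and `v + v⁵ ≤ (wv v)²` -/
theorem prod_le_wv {v : ℝ} (hv : 0 < v) : (v ^ (1 / 3 : ℝ) + v) * (v + v ^ 2) ≤ 4 * wv v ^ 2 := by
  have h1 := gna_sq (θ := 1 / 3 + 1) hv (by norm_num) (by norm_num)
  have h2 := gna_sq (θ := 1 / 3 + 2) hv (by norm_num) (by norm_num)
  have h3 := gna_sq (θ := 2) hv (by norm_num) (by norm_num)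
  have h4 := gna_sq (θ := 3) hv (by norm_num) (by norm_num)
  rw [Real.rpow_add hv, Real.rpow_one] at h1
  rw [Real.rpow_add hv, Real.rpow_two] at h2
  rw [Real.rpow_two] at h3
  rw [show (3 : ℝ) = ((3 : ℕ) : ℝ) by norm_num, Real.rpow_natCast] at h4
  calc (v ^ (1 / 3 : ℝ) + v) * (v + v ^ 2)
      = v ^ (1 / 3 : ℝ) * v + v ^ (1 / 3 : ℝ) * v ^ 2 + v ^ 2 + v ^ 3 := by ring
    _ ≤ _ := by linarith

/-- `dn_pow_le` with `ε = ee`; `dn_zero` for `n = 0` -/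
theorem dn_le_ee (k : ℕ) : ∃ C : ℝ, 1 ≤ C ∧ ∀ (Y : ℝ) (n : O), 1 ≤ Y → nm n ≤ Y → dn n ^ k ≤ C * Y ^ ee := by
  obtain ⟨C, hC, h⟩ := dn_pow_le k ee_pos
  refine ⟨max C 1, le_max_right _ _, fun Y n hY hn => ?_⟩
  have h1 : 1 ≤ Y ^ ee := Real.one_le_rpow hY ee_pos.le
  by_cases h0 : n = 0
  · subst h0
    rw [dn_zero]
    calc (0 : ℝ) ^ k ≤ 1 := pow_le_one₀ le_rfl zero_le_one
      _ = 1 * 1 := (one_mul _).symm
      _ ≤ max C 1 * Y ^ ee := mul_le_mul (le_max_right _ _) h1 zero_le_one (by positivity)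
  · calc dn n ^ k ≤ C * nm n ^ ee := h n h0
      _ ≤ max C 1 * Y ^ ee := mul_le_mul (le_max_left _ _)
          (Real.rpow_le_rpow (nm_nonneg n) hn ee_pos.le) (Real.rpow_nonneg (nm_nonneg n) _) (by positivity)

theorem gnb_cpow {Y α β x : ℝ} {z : ℂ} (hP : Par Y α β) (h1 : Y ^ β < x) (h2 : x ≤ XX Y β)
    (hz : |z.re| ≤ 3) : ‖((x / Y ^ β : ℝ) : ℂ) ^ z‖ ≤ Y ^ (9 * ee) := by
  have hY := hP.pos
  have hB : 0 < Y ^ β := by positivity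
  have a1 : 1 ≤ x / Y ^ β := (one_le_div hB).2 h1.le
  have a2 : x / Y ^ β ≤ Y ^ (3 * ee) := by
    rw [div_le_iff₀ hB, ← Real.rpow_add hY, add_comm]; exact h2
  rw [Complex.norm_cpow_eq_rpow_re_of_pos (by linarith)]
  calc (x / Y ^ β) ^ z.re ≤ (x / Y ^ β) ^ (3 : ℝ) :=
        Real.rpow_le_rpow_of_exponent_le a1 ((le_abs_self _).trans hz)
    _ ≤ (Y ^ (3 * ee)) ^ (3 : ℝ) := Real.rpow_le_rpow (by linarith) a2 (by norm_num)
    _ = _ := by rw [← Real.rpow_mul hY.le]; ring_nf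

theorem gnb_num {Y α β n U : ℝ} (hP : Par Y α β) (h1 : 1 ≤ n) (h2 : n ≤ XX Y β) (hU : 0 < U) :
    (U ^ (1 / 3 : ℝ) * (1 / 2 : ℝ) ^ (-(3 / 10) : ℝ) * (XX Y β / n) +
        (U * (XX Y β / n)) ^ ee * (U + (U * (XX Y β / n)) ^ (2 / 3 : ℝ))) * (XX Y β / n) *
        (Y ^ (10 * ee)) ^ 2 ≤
      2 * (Y ^ (7 / 6 + 100 * ee) * (n ^ (-2 : ℝ) * (U / KK Y α β) ^ (1 / 3 : ℝ) + n ^ (-(4 / 3) : ℝ) *
        ((U / KK Y α β) ^ (1 + ee) + (U / KK Y α β) ^ (2 / 3 + ee)))) := by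
  have hY := hP.pos
  have hY1 : 1 < Y := by linarith [hP.two]
  obtain ⟨u, rfl⟩ : ∃ u : ℝ, U = Y ^ u := ⟨_, (Real.rpow_logb hY hY1.ne' hU).symm⟩
  obtain ⟨t, rfl⟩ : ∃ t : ℝ, n = Y ^ t := ⟨_, (Real.rpow_logb hY hY1.ne' (by linarith)).symm⟩
  have t0 : 0 ≤ t := by
    rw [← Real.rpow_zero Y] at h1
    exact (Real.rpow_le_rpow_left_iff hY1).1 h1
  have t1 : t ≤ β + 3 * ee := (Real.rpow_le_rpow_left_iff hY1).1 h2
  have a1 : (1 / 2 : ℝ) ^ (-(3 / 10) : ℝ) ≤ 2 := by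
    calc (1 / 2 : ℝ) ^ (-(3 / 10) : ℝ) ≤ (1 / 2 : ℝ) ^ (-1 : ℝ) :=
          Real.rpow_le_rpow_of_exponent_ge (by norm_num) (by norm_num) (by norm_num)
      _ = 2 := by rw [Real.rpow_neg_one]; norm_num
  have a0 : 0 ≤ (1 / 2 : ℝ) ^ (-(3 / 10) : ℝ) := by positivity
  generalize (1 / 2 : ℝ) ^ (-(3 / 10) : ℝ) = κ at a0 a1
  have b1 := hP.a1
  have b2 := hP.b2
  have he := ee_eq
  obtain ⟨m, hm⟩ : ∃ m, m = β + 3 * ee - t := ⟨_, rfl⟩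
  obtain ⟨v, hv⟩ : ∃ v, v = u - (2 * β - α) := ⟨_, rfl⟩
  rw [XX, KK, ← Real.rpow_sub hY, ← Real.rpow_sub hY, ← hm, ← hv, ← Real.rpow_add hY u m, sq]
  simp only [← Real.rpow_mul hY.le]
  have c1 : Y ^ (u * (1 / 3)) * Y ^ m * Y ^ m * (Y ^ (10 * ee) * Y ^ (10 * ee)) ≤
      Y ^ (7 / 6 + 100 * ee) * (Y ^ (t * -2) * Y ^ (v * (1 / 3))) := by
    simp only [← Real.rpow_add hY]
    exact hP.mono (by rw [hm, hv, he]; linarith)
  have c2 : Y ^ ((u + m) * ee) * Y ^ u * Y ^ m * (Y ^ (10 * ee) * Y ^ (10 * ee)) ≤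
      Y ^ (7 / 6 + 100 * ee) * (Y ^ (t * -(4 / 3)) * Y ^ (v * (1 + ee))) := by
    simp only [← Real.rpow_add hY]
    exact hP.mono (by rw [hm, hv, he]; linarith)
  have c3 : Y ^ ((u + m) * ee) * Y ^ ((u + m) * (2 / 3)) * Y ^ m * (Y ^ (10 * ee) * Y ^ (10 * ee)) ≤
      Y ^ (7 / 6 + 100 * ee) * (Y ^ (t * -(4 / 3)) * Y ^ (v * (2 / 3 + ee))) := by
    simp only [← Real.rpow_add hY]
    exact hP.mono (by rw [hm, hv, he]; linarith)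
  have p1 : 0 ≤ Y ^ (u * (1 / 3)) * Y ^ m * Y ^ m * (Y ^ (10 * ee) * Y ^ (10 * ee)) := by positivity
  have p2 : 0 ≤ Y ^ ((u + m) * ee) * Y ^ u * Y ^ m * (Y ^ (10 * ee) * Y ^ (10 * ee)) := by positivity
  have p3 : 0 ≤ Y ^ ((u + m) * ee) * Y ^ ((u + m) * (2 / 3)) * Y ^ m *
    (Y ^ (10 * ee) * Y ^ (10 * ee)) := by positivity
  nlinarith [mul_le_mul_of_nonneg_right a1 p1]

/-- `StAll` with `ε = ee`, `Q = 1/2`, `M = X / N l ≥ 1`, `c n = γ (l n) · cb h n · (N (l n) / B) ^ z`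
(`cb_mul_left`, `PSq.of_mul_left`; `‖c n‖ ≤ C Y^ee (X/B)³`, `X / B = Y^(3 ee)`, `N2 c M ≤ 11 M sup²` by
`card_ball_le`); put `U = K v`, `(U M)^ee ≤ (K v X)^ee`; in the term `U M` use `(N l)^(1/3) ≤ X^(1/3)`. -/
theorem rows_gen (hA : StAll) (k : ℕ) : ∃ C : ℝ, 0 ≤ C ∧ ∀ (Y α β U : ℝ) (γ : O → ℂ) (l h : O) (z : ℂ)
    (S : Finset O), Par Y α β → Supp γ (Y ^ β) (XX Y β) → Dv k γ → PSq l → nm l ≤ XX Y β → 1 ≤ U →
    |z.re| ≤ 3 → (∀ m ∈ S, m ≠ 0 ∧ nm m ≤ U) →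
    ∑ m ∈ S, ‖RS γ (XX Y β) (Y ^ β) l h m z‖ ^ 2 ≤ C * Y ^ (7 / 6 + 100 * ee) *
      (nm l ^ (-2 : ℝ) * (U / KK Y α β) ^ (1 / 3 : ℝ) + nm l ^ (-(4 / 3) : ℝ) *
        ((U / KK Y α β) ^ (1 + ee) + (U / KK Y α β) ^ (2 / 3 + ee))) := by
  obtain ⟨C₁, h₁⟩ := hA ee ee_pos
  obtain ⟨C₂, hC₂, h₂⟩ := dn_le_ee k
  have hC : 0 ≤ max C₁ 0 := le_max_right _ _
  refine ⟨max C₁ 0 * (22 * C₂ ^ 2), by positivity,
    fun Y α β U γ l g z S hP hγ hD hl hlX hU hz hS => ?_⟩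
  have hY := hP.pos
  have hl1 := one_le_nm hl.ne_zero
  have hl0 : 0 < nm l := by linarith
  have hB : 0 < Y ^ β := by positivity
  have hX : 0 < XX Y β := by unfold XX; positivity
  have hXY : XX Y β ≤ Y := hP.le (by linarith [hP.b2, ee_eq])
  obtain ⟨M, hM⟩ : ∃ M, M = XX Y β / nm l := ⟨_, rfl⟩
  have hM1 : 1 ≤ M := by rw [hM]; exact (one_le_div hl0).2 hlX
  have hMX : M ≤ XX Y β := by rw [hM]; exact div_le_self hX.le hl1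
  obtain ⟨c, hc⟩ : ∃ c : O → ℂ, ∀ n, c n = γ (l * n) * cb g n * ((nm (l * n) / Y ^ β : ℝ) : ℂ) ^ z :=
    ⟨_, fun _ => rfl⟩
  have hsupp : Supp c 0 M := fun n hn => by
    rw [hc] at hn
    obtain ⟨a1, -, a3⟩ := hγ _ (left_ne_zero_of_mul (left_ne_zero_of_mul hn))
    have a4 := PSq.of_mul_left hl.1 a1
    refine ⟨a4, nm_pos a4.ne_zero, ?_⟩
    rw [hM, le_div_iff₀ hl0, mul_comm, ← nm_mul]
    exact a3
  have hsub : ball M ⊆ ball (XX Y β) := fun n hn => mem_ball.2 ((mem_ball.1 hn).trans hMX)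
  have e1 : ∀ m, RS γ (XX Y β) (Y ^ β) l g m z = ∑ n ∈ ball M, c n * cb m n := fun m => by
    rw [Finset.sum_subset hsub (f := fun n => c n * cb m n) fun n _ hn => ?_]
    · refine Finset.sum_congr rfl fun n _ => ?_
      rw [hc, cb_mul_left]; ring
    · by_contra h0
      exact hn (mem_ball.2 (hsupp n (left_ne_zero_of_mul h0)).2.2)
  have e2 : N2 c M ≤ 11 * M * (C₂ * Y ^ (10 * ee)) ^ 2 := by
    refine (Finset.sum_le_card_nsmul _ _ ((C₂ * Y ^ (10 * ee)) ^ 2) fun n _ => ?_).trans ?_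
    · by_cases h0 : γ (l * n) = 0
      · rw [hc, h0, zero_mul, zero_mul, norm_zero, zero_pow two_ne_zero]; positivity
      obtain ⟨-, a2, a3⟩ := hγ _ h0
      refine pow_le_pow_left₀ (norm_nonneg _) ?_ 2
      rw [hc, norm_mul, norm_mul]
      calc _ ≤ C₂ * Y ^ ee * 1 * Y ^ (9 * ee) := by
            gcongr
            · exact (hD _).trans (h₂ Y _ hP.one (a3.trans hXY))
            · exact norm_cb_le _ _
            · exact gnb_cpow hP a2 a3 hz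
        _ = _ := by rw [mul_one, mul_assoc, ← Real.rpow_add hY]; ring_nf
    · rw [nsmul_eq_mul]
      exact mul_le_mul_of_nonneg_right (card_ball_le hM1) (by positivity)
  have key := h₁ U M (1 / 2) S c hU hM1 le_rfl (fun m hm => ⟨(hS m hm).1, (hS m hm).2, fun k₀ m' e => by
    have : k₀ ≠ 0 := fun h0 => (hS m hm).1 (by rw [e, h0, zero_mul])
    linarith [one_le_nm this]⟩) hsupp
  simp only [e1]
  refine key.trans ?_
  have e3 := gnb_num hP hl1 hlX (by linarith : 0 < U)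
  rw [← hM] at e3
  have hN := N2_nonneg c M
  calc _ ≤ max C₁ 0 * (U ^ (1 / 3 : ℝ) * (1 / 2 : ℝ) ^ (-(3 / 10) : ℝ) * M +
        (U * M) ^ ee * (U + (U * M) ^ (2 / 3 : ℝ))) * (11 * M * (C₂ * Y ^ (10 * ee)) ^ 2) := by
        gcongr
        exact le_max_left _ _
    _ = max C₁ 0 * (11 * C₂ ^ 2) * ((U ^ (1 / 3 : ℝ) * (1 / 2 : ℝ) ^ (-(3 / 10) : ℝ) * M +
        (U * M) ^ ee * (U + (U * M) ^ (2 / 3 : ℝ))) * M * (Y ^ (10 * ee)) ^ 2) := by ring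
    _ ≤ _ := (mul_le_mul_of_nonneg_left e3 (by positivity)).trans_eq (by ring)

theorem gna_lg {C₁ Y B X L G : ℝ} {f : O → ℂ} {l n : O}
    (h₁ : ∀ n : O, nm n ≤ Y → dn n ^ 2 ≤ C₁ * Y ^ ee) (hD : 0 ≤ 2 * G * (C₁ * Y ^ ee)) (hX : X ≤ Y)
    (hG : 0 < G) (hf : ∀ b, Prim b → ‖f b‖ ≤ G * dn b) (hl : Prim l) (hn : Prim n) :
    ‖lg f B X L l n‖ ≤ 2 * G * (C₁ * Y ^ ee) := by
  unfold lg
  split_ifs with h
  · have h2 : dn n ≤ dn (l * n) := dn_le_of_dvd (hl.mul hn).ne_zero (Dvd.intro_left l rfl)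
    have h3 := dn_nonneg n
    rw [norm_mul]
    calc ‖rL L n‖ * ‖f (l * n)‖ ≤ (2 * dn (l * n)) * (G * dn (l * n)) :=
          mul_le_mul ((norm_rL_le L hn).trans (by linarith)) (hf _ (hl.mul hn)) (norm_nonneg _)
            (by linarith)
      _ = 2 * G * dn (l * n) ^ 2 := by ring
      _ ≤ _ := mul_le_mul_of_nonneg_left (h₁ _ (h.2.trans hX)) (by linarith)
  · simpa using hD

theorem gna_size {Y α β U q : ℝ} (hP : Par Y α β) (hU : 1 ≤ U) (hUY : U ≤ Y) (hq : 0 ≤ q) :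
    (Y ^ ee) ^ 2 * (U * XX Y β) ^ ee * (U + U ^ (1 / 3 : ℝ) * q * XX Y β / LL Y ^ 2 +
      (U * XX Y β) ^ (2 / 3 : ℝ) * (LL Y ^ 2) ^ (-(2 / 3) : ℝ)) * XX Y β ≤
    (2 + q) * Y ^ (7 / 6 + 50 * ee) * (LL Y ^ (-2 : ℝ) * (U / KK Y α β) ^ (1 / 3 : ℝ) +
      LL Y ^ (-(4 / 3) : ℝ) * wv (U / KK Y α β)) := by
  have hY := hP.pos
  have he := ee_eq
  have a1 := hP.a1
  have b1 := hP.b1
  have b2 := hP.b2
  have hK : 0 < KK Y α β := Real.rpow_pos_of_pos hY _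
  obtain ⟨v, hv, rfl⟩ : ∃ v, 0 < v ∧ U = KK Y α β * v :=
    ⟨U / KK Y α β, div_pos (by linarith) hK, by field_simp⟩
  rw [mul_div_cancel_left₀ _ hK.ne']
  have hX : XX Y β ≤ Y := hP.le (by linarith)
  have hX0 : 0 < XX Y β := Real.rpow_pos_of_pos hY _
  have e1 : (KK Y α β * v * XX Y β) ^ ee ≤ Y ^ (2 * ee) := by
    rw [Real.rpow_mul hY.le, Real.rpow_two]
    refine Real.rpow_le_rpow (by positivity) ?_ ee_pos.le
    rw [sq]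
    exact mul_le_mul hUY hX hX0.le hY.le
  have w1 : v ≤ wv v := by
    simpa using rpow_le_wv (θ := 1) hv (by norm_num) (by norm_num)
  have w2 : v ^ (2 / 3 : ℝ) ≤ wv v := rpow_le_wv hv (by norm_num) (by norm_num)
  have w0 : 0 ≤ wv v := wv_nonneg hv.le
  have hL : 0 < LL Y := Real.rpow_pos_of_pos hY _
  have l1 : (LL Y ^ 2) ^ (-(2 / 3) : ℝ) = LL Y ^ (-(4 / 3) : ℝ) := by
    rw [← Real.rpow_two, ← Real.rpow_mul hL.le]
    norm_num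
  have l2 : (LL Y ^ 2)⁻¹ = LL Y ^ (-2 : ℝ) := by
    rw [Real.rpow_neg hL.le, Real.rpow_two]
  have t1 : (Y ^ ee) ^ 2 * Y ^ (2 * ee) * KK Y α β * XX Y β ≤
      Y ^ (7 / 6 + 50 * ee) * LL Y ^ (-(4 / 3) : ℝ) := by
    unfold KK XX LL
    rw [← Real.rpow_two, ← Real.rpow_mul hY.le, ← Real.rpow_mul hY.le]
    simp only [← Real.rpow_add hY]
    exact hP.mono (by linarith)
  have t2 : (Y ^ ee) ^ 2 * Y ^ (2 * ee) * KK Y α β ^ (1 / 3 : ℝ) * XX Y β * XX Y β ≤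
      Y ^ (7 / 6 + 50 * ee) := by
    unfold KK XX
    rw [← Real.rpow_two, ← Real.rpow_mul hY.le, ← Real.rpow_mul hY.le]
    simp only [← Real.rpow_add hY]
    exact hP.mono (by linarith)
  have t3 : (Y ^ ee) ^ 2 * Y ^ (2 * ee) * KK Y α β ^ (2 / 3 : ℝ) * XX Y β ^ (2 / 3 : ℝ) * XX Y β ≤
      Y ^ (7 / 6 + 50 * ee) := by
    unfold KK XX
    rw [← Real.rpow_two, ← Real.rpow_mul hY.le, ← Real.rpow_mul hY.le, ← Real.rpow_mul hY.le]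
    simp only [← Real.rpow_add hY]
    exact hP.mono (by linarith)
  have p1 : 0 ≤ LL Y ^ (-2 : ℝ) := by positivity
  have p2 : 0 ≤ LL Y ^ (-(4 / 3) : ℝ) := by positivity
  have p3 : 0 ≤ v ^ (1 / 3 : ℝ) := by positivity
  have p4 : 0 ≤ Y ^ (7 / 6 + 50 * ee) := by positivity
  calc _ ≤ (Y ^ ee) ^ 2 * Y ^ (2 * ee) * (KK Y α β * v + (KK Y α β * v) ^ (1 / 3 : ℝ) * q * XX Y β / LL Y ^ 2 +
        (KK Y α β * v * XX Y β) ^ (2 / 3 : ℝ) * (LL Y ^ 2) ^ (-(2 / 3) : ℝ)) * XX Y β := by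
        gcongr
    _ = ((Y ^ ee) ^ 2 * Y ^ (2 * ee) * KK Y α β * XX Y β) * v +
        q * ((Y ^ ee) ^ 2 * Y ^ (2 * ee) * KK Y α β ^ (1 / 3 : ℝ) * XX Y β * XX Y β) *
          (LL Y ^ (-2 : ℝ) * v ^ (1 / 3 : ℝ)) +
        ((Y ^ ee) ^ 2 * Y ^ (2 * ee) * KK Y α β ^ (2 / 3 : ℝ) * XX Y β ^ (2 / 3 : ℝ) * XX Y β) *
          (LL Y ^ (-(4 / 3) : ℝ) * v ^ (2 / 3 : ℝ)) := by
        rw [l1, div_eq_mul_inv, l2, Real.mul_rpow (by positivity) hX0.le, Real.mul_rpow hK.le hv.le,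
          Real.mul_rpow hK.le hv.le]
        ring
    _ ≤ (Y ^ (7 / 6 + 50 * ee) * LL Y ^ (-(4 / 3) : ℝ)) * wv v +
        q * Y ^ (7 / 6 + 50 * ee) * (LL Y ^ (-2 : ℝ) * v ^ (1 / 3 : ℝ)) +
        Y ^ (7 / 6 + 50 * ee) * (LL Y ^ (-(4 / 3) : ℝ) * wv v) := by
        gcongr
    _ ≤ _ := by
        have k1 := mul_nonneg p4 (mul_nonneg p1 p3)
        have k2 := mul_nonneg hq (mul_nonneg p4 (mul_nonneg p2 w0))
        nlinarith

/-- `StAllG` with `ε = ee`, `M = X`, `F = L²`, `Q = 1/2` (`k ≠ 0` gives `1 ≤ N k₀`) for the coefficients divided by their supremum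
`C G Y^(2 ee)` (`norm_rL_le`, `dn_le_ee`, `rL_ne_zero`; set them to `0` off primary `n`);
`(U X)^ee ≤ Y^(2 ee)`, `U = K v`, `rpow_le_wv`. -/
theorem rows_large (hA : StAllG) : ∃ C : ℝ, 0 ≤ C ∧ ∀ (Y α β U G : ℝ) (f : O → ℂ) (l h : O)
    (S : Finset O), Par Y α β → 0 < G → (∀ b, Prim b → ‖f b‖ ≤ G * dn b) → Prim l → 1 ≤ U → U ≤ Y →
    (∀ m ∈ S, m ≠ 0 ∧ nm m ≤ U) →
    ∑ m ∈ S, ‖∑ n ∈ pball (XX Y β), lg f (Y ^ β) (XX Y β) (LL Y) l n * cb h n * cb m n‖ ^ 2 ≤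
      C * G ^ 2 * Y ^ (7 / 6 + 50 * ee) *
        (LL Y ^ (-2 : ℝ) * (U / KK Y α β) ^ (1 / 3 : ℝ) + LL Y ^ (-(4 / 3) : ℝ) * wv (U / KK Y α β)) := by
  classical
  obtain ⟨C₁, hC₁, h₁⟩ := dn_le_ee 2
  obtain ⟨C₂, h₂⟩ := hA ee ee_pos
  have hq : 0 ≤ (1 / 2 : ℝ) ^ (-(3 / 10) : ℝ) := by positivity
  refine ⟨4 * C₁ ^ 2 * |C₂| * (2 + (1 / 2 : ℝ) ^ (-(3 / 10) : ℝ)), by positivity,
    fun Y α β U G f l h S hP hG hf hl hU hUY hS => ?_⟩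
  have hY := hP.pos
  have he := ee_eq
  have b1 := hP.b1
  have b2 := hP.b2
  have hX : XX Y β ≤ Y := hP.le (by linarith)
  have hX1 : 1 ≤ XX Y β := hP.one_le (by linarith)
  have hL : 1 ≤ LL Y := hP.one_le (by norm_num)
  have hD : 0 < 2 * G * (C₁ * Y ^ ee) := by positivity
  have hb : ∀ n, Prim n → ‖lg f (Y ^ β) (XX Y β) (LL Y) l n‖ ≤ 2 * G * (C₁ * Y ^ ee) := fun n hn =>
    gna_lg (fun n hn => h₁ Y n hP.one hn) hD.le hX hG hf hl hn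
  have hs := gna_size hP hU hUY hq
  obtain ⟨D, hDe⟩ : ∃ D, D = 2 * G * (C₁ * Y ^ ee) := ⟨_, rfl⟩
  rw [← hDe] at hD hb
  have key := h₂ U (XX Y β) (LL Y ^ 2) (1 / 2) S
    (fun n => if Prim n then lg f (Y ^ β) (XX Y β) (LL Y) l n * cb h n / D else 0) hU hX1
    (one_le_pow₀ hL) le_rfl
    (fun k hk => ⟨(hS k hk).1, (hS k hk).2, fun k₀ m e => by
      have : k₀ ≠ 0 := by
        rintro rfl
        exact (hS k hk).1 (by simpa using e)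
      linarith [one_le_nm this]⟩)
    (fun n => by
      split_ifs with hn
      · rw [norm_div, norm_mul, Complex.norm_real, Real.norm_of_nonneg hD.le, div_le_one hD]
        exact (mul_le_of_le_one_right (norm_nonneg _) (norm_cb_le _ _)).trans (hb n hn)
      · simp)
    (fun n hn => by
      by_cases hp : Prim n
      · refine rL_ne_zero (by linarith) hp fun h0 => hn ?_
        simp [lg, h0]
      · exact absurd (if_neg hp) hn)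
  have e : ∀ m, ‖∑ n ∈ pball (XX Y β), lg f (Y ^ β) (XX Y β) (LL Y) l n * cb h n * cb m n‖ ^ 2 =
      D ^ 2 * ‖∑ n ∈ pball (XX Y β), (if Prim n then lg f (Y ^ β) (XX Y β) (LL Y) l n * cb h n / D
        else 0) * cb m n‖ ^ 2 := fun m => by
    have hD' : (D : ℂ) ≠ 0 := by exact_mod_cast hD.ne'
    rw [← mul_pow, ← Real.norm_of_nonneg hD.le, ← Complex.norm_real, ← norm_mul, Finset.mul_sum,
      Complex.norm_real, Real.norm_of_nonneg hD.le]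
    refine congrArg (fun z => ‖z‖ ^ 2) (Finset.sum_congr rfl fun n hn => ?_)
    rw [if_pos (mem_pball.1 hn).2]
    field_simp
  simp only [e]
  rw [← Finset.mul_sum]
  have hU0 : 0 < U := by linarith
  have hX0 : 0 < XX Y β := by linarith
  have hL0 : 0 < LL Y := by linarith
  have p1 : 0 ≤ (U * XX Y β) ^ ee := by positivity
  have p2 : 0 ≤ U + U ^ (1 / 3 : ℝ) * (1 / 2 : ℝ) ^ (-(3 / 10) : ℝ) * XX Y β / LL Y ^ 2 +
      (U * XX Y β) ^ (2 / 3 : ℝ) * (LL Y ^ 2) ^ (-(2 / 3) : ℝ) := by positivity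
  refine (mul_le_mul_of_nonneg_left (key.trans (mul_le_mul_of_nonneg_right (mul_le_mul_of_nonneg_right
    (mul_le_mul_of_nonneg_right (le_abs_self C₂) p1) p2) hX0.le)) (sq_nonneg D)).trans ?_
  have := mul_le_mul_of_nonneg_left hs (show 0 ≤ 4 * C₁ ^ 2 * |C₂| * G ^ 2 by positivity)
  rw [hDe]
  linarith [this]

end Crest.Agent.R12.QA
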