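import Crest.Agent.R12.QA.Tw

/-! Row 12, block QA: fourth moments. -/

set_option autoImplicit false

namespace Crest.Agent.R12.QA

open Crest.Agent.R17
open Crest.Agent.R17.M2 (cv Tq Dec Mu)
open scoped ComplexConjugate

theorem mma_nm_le {N : ℝ} {c : O → ℂ} (hc : Pp N c) {D : O} (hD : Prim D) {m : O} (h : c (D * m) ≠ 0) :
    nm m ≤ 2 * N := by
  have h1 := (hc _ h).2.2
  have h2 := one_le_nm hD.ne_zero
  rw [nm_mul] at h1
  exact (le_mul_of_one_le_left (nm_nonneg m) h2).trans h1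

/-- the square of a finite shifted sum is a column sum of length `4 N²` (`tsum_eq_sum` over `pball (2 N)`,
`Finset.sum_mul_sum`, `sum_anti_ball` with `X = Y = 4 N²`, `cb_mul_right`) -/
theorem Tq_sq {N : ℝ} {c : O → ℂ} (hN : 1 ≤ N) (hc : Pp N c) {D : O} (hD : Prim D) (k : O) :
    Tq c D (cb k) ^ 2 =
      ∑ n ∈ pball (4 * N ^ 2), cv (fun m => c (D * m)) (fun m => c (D * m)) n * cb k n := by
  classical
  have e1 : Tq c D (cb k) = ∑ m ∈ pball (4 * N ^ 2), c (D * m) * cb k m := by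
    unfold Tq
    rw [tsum_Pr_eq (fun m => c (D * m) * cb k m), tsum_eq_sum (s := pball (4 * N ^ 2))]
    · exact Finset.sum_congr rfl fun m hm => if_pos (mem_pball.1 hm).2
    · intro m hm
      split_ifs with h
      · by_cases h0 : c (D * m) = 0
        · rw [h0, zero_mul]
        · exact absurd (mem_pball.2 ⟨(mma_nm_le hc hD h0).trans (by nlinarith), h⟩) hm
      · rfl
  have e2 : ∑ n ∈ pball (4 * N ^ 2), cv (fun m => c (D * m)) (fun m => c (D * m)) n * cb k n =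
      ∑ n ∈ pball (4 * N ^ 2), ∑ p ∈ anti n, c (D * p.1) * cb k p.1 * (c (D * p.2) * cb k p.2) := by
    refine Finset.sum_congr rfl fun n _ => ?_
    rw [cv, Finset.sum_mul]
    refine Finset.sum_congr rfl fun p hp => ?_
    rw [← (mem_anti.1 hp).2.2, cb_mul_right]
    ring
  rw [e1, e2, sum_anti_ball le_rfl (fun m n => c (D * m) * cb k m * (c (D * n) * cb k n)), sq,
    Finset.sum_mul_sum]
  refine Finset.sum_congr rfl fun m _ => Finset.sum_congr rfl fun n _ => ?_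
  split_ifs with h
  · rfl
  · by_cases hm : c (D * m) = 0
    · simp [hm]
    by_cases hn : c (D * n) = 0
    · simp [hn]
    refine absurd ?_ h
    rw [nm_mul]
    calc nm m * nm n ≤ (2 * N) * (2 * N) :=
        mul_le_mul (mma_nm_le hc hD hm) (mma_nm_le hc hD hn) (nm_nonneg n) (by linarith)
      _ = 4 * N ^ 2 := by ring

theorem mma_cv_le {f : O → ℂ} {G : ℝ} (hf : ∀ n, ‖f n‖ ≤ G) {n : O} (hn : Prim n) :
    ‖cv f f n‖ ≤ G ^ 2 * dn n := by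
  have hG : 0 ≤ G := (norm_nonneg _).trans (hf 0)
  unfold cv
  refine (norm_sum_le _ _).trans ((Finset.sum_le_card_nsmul _ _ (G ^ 2) fun p _ => ?_).trans ?_)
  · rw [norm_mul, sq]
    exact mul_le_mul (hf _) (hf _) (norm_nonneg _) hG
  · rw [nsmul_eq_mul, card_anti hn, mul_comm]

theorem mma_v {v : ℝ} (hv : 0 < v) : v ^ (2 / 3 : ℝ) ≤ v ^ (1 / 3 : ℝ) + v := by
  have h1 := Real.rpow_nonneg hv.le (1 / 3 : ℝ)
  rcases le_total v 1 with h | h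
  · have := Real.rpow_le_rpow_of_exponent_ge hv h (show (1 / 3 : ℝ) ≤ 2 / 3 by norm_num)
    linarith
  · have := Real.rpow_le_rpow_of_exponent_le h (show (2 / 3 : ℝ) ≤ 1 by norm_num)
    rw [Real.rpow_one] at this
    linarith

theorem mma_size {Y α β ν v : ℝ} (h : Par Y α β) (hν : ν ≤ 246 / 1000) (hv : 0 < v) :
    Y ^ (4 * ee) * (KK Y α β * v + (KK Y α β * v) ^ (1 / 3 : ℝ) * (1 / 2 : ℝ) ^ (-(3 / 10) : ℝ) *
        (4 * (Y ^ ν) ^ 2) + (KK Y α β * v * (4 * (Y ^ ν) ^ 2)) ^ (2 / 3 : ℝ)) ≤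
      12 * Y ^ (6615 / 10000 : ℝ) * (v ^ (1 / 3 : ℝ) + v) := by
  have hY := h.pos
  have he := ee_eq
  have ha1 := h.a1
  have hb2 := h.b2
  have hK : 0 < KK Y α β := Real.rpow_pos_of_pos hY _
  have hv3 := Real.rpow_nonneg hv.le (1 / 3 : ℝ)
  have hP : 0 ≤ Y ^ (6615 / 10000 : ℝ) := Real.rpow_nonneg hY.le _
  have hsq : (Y ^ ν) ^ 2 = Y ^ (2 * ν) := by
    rw [mul_comm, Real.rpow_mul hY.le, Real.rpow_two]
  have h1 : Y ^ (4 * ee) * KK Y α β ≤ Y ^ (6615 / 10000 : ℝ) := by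
    rw [KK, ← Real.rpow_add hY]
    exact h.mono (by linarith)
  have h2 : Y ^ (4 * ee) * (KK Y α β ^ (1 / 3 : ℝ) * Y ^ (2 * ν)) ≤ Y ^ (6615 / 10000 : ℝ) := by
    rw [KK, ← Real.rpow_mul hY.le, ← Real.rpow_add hY, ← Real.rpow_add hY]
    exact h.mono (by linarith)
  have h3 : Y ^ (4 * ee) * (KK Y α β * Y ^ (2 * ν)) ^ (2 / 3 : ℝ) ≤ Y ^ (6615 / 10000 : ℝ) := by
    rw [KK, ← Real.rpow_add hY, ← Real.rpow_mul hY.le, ← Real.rpow_add hY]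
    exact h.mono (by linarith)
  have h4 : (1 / 2 : ℝ) ^ (-(3 / 10) : ℝ) ≤ 2 := by
    rw [Real.rpow_neg (by norm_num), one_div, Real.inv_rpow (by norm_num), inv_inv]
    calc (2 : ℝ) ^ (3 / 10 : ℝ) ≤ 2 ^ (1 : ℝ) := Real.rpow_le_rpow_of_exponent_le (by norm_num) (by norm_num)
      _ = 2 := Real.rpow_one 2
  have h5 : (4 : ℝ) ^ (2 / 3 : ℝ) ≤ 4 := by
    calc (4 : ℝ) ^ (2 / 3 : ℝ) ≤ 4 ^ (1 : ℝ) := Real.rpow_le_rpow_of_exponent_le (by norm_num) (by norm_num)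
      _ = 4 := Real.rpow_one 4
  have hY2 : 0 < Y ^ (2 * ν) := Real.rpow_pos_of_pos hY _
  have t1 : Y ^ (4 * ee) * (KK Y α β * v) ≤ Y ^ (6615 / 10000 : ℝ) * v := by
    rw [← mul_assoc]
    exact mul_le_mul_of_nonneg_right h1 hv.le
  have t2 : Y ^ (4 * ee) * ((KK Y α β * v) ^ (1 / 3 : ℝ) * (1 / 2 : ℝ) ^ (-(3 / 10) : ℝ) *
      (4 * (Y ^ ν) ^ 2)) ≤ 8 * (Y ^ (6615 / 10000 : ℝ) * v ^ (1 / 3 : ℝ)) := by
    rw [hsq, Real.mul_rpow hK.le hv.le]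
    calc _ = 4 * (1 / 2 : ℝ) ^ (-(3 / 10) : ℝ) *
          (Y ^ (4 * ee) * (KK Y α β ^ (1 / 3 : ℝ) * Y ^ (2 * ν)) * v ^ (1 / 3 : ℝ)) := by ring
      _ ≤ 4 * 2 * (Y ^ (6615 / 10000 : ℝ) * v ^ (1 / 3 : ℝ)) := by gcongr
      _ = _ := by ring
  have t3 : Y ^ (4 * ee) * (KK Y α β * v * (4 * (Y ^ ν) ^ 2)) ^ (2 / 3 : ℝ) ≤
      4 * (Y ^ (6615 / 10000 : ℝ) * (v ^ (1 / 3 : ℝ) + v)) := by
    have e : KK Y α β * v * (4 * Y ^ (2 * ν)) = 4 * (KK Y α β * Y ^ (2 * ν) * v) := by ring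
    rw [hsq, e, Real.mul_rpow (by norm_num) (by positivity), Real.mul_rpow (by positivity) hv.le]
    have := mma_v hv
    calc _ = (4 : ℝ) ^ (2 / 3 : ℝ) *
          (Y ^ (4 * ee) * (KK Y α β * Y ^ (2 * ν)) ^ (2 / 3 : ℝ) * v ^ (2 / 3 : ℝ)) := by ring
      _ ≤ _ := by gcongr
  have t4 : 0 ≤ Y ^ (6615 / 10000 : ℝ) * v := mul_nonneg hP hv.le
  have t5 : 0 ≤ Y ^ (6615 / 10000 : ℝ) * v ^ (1 / 3 : ℝ) := mul_nonneg hP hv3
  rw [mul_add, mul_add]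
  nlinarith

/-- `Tq_sq`, `StAllG` with `ε = ee`, `M = 4 N₀² ≤ Y`, `F = 1` (`s = 1`), `Q = 1/2`, coefficients
`cv … n · cb h n / (C G² Y^ee)`; `U = K v`, `v^(2/3) ≤ v^(1/3) + v`. -/
theorem mom_c (hA : StAllG) : ∃ C : ℝ, 0 ≤ C ∧ ∀ (Y α β ν U G : ℝ) (c : O → ℂ) (D h : O) (S : Finset O),
    Par Y α β → 0 ≤ ν → ν ≤ 246 / 1000 → 0 < G → Pp (Y ^ ν) c → (∀ n, ‖c n‖ ≤ G) → Prim D → 1 ≤ U →
    U ≤ Y → (∀ m ∈ S, m ≠ 0 ∧ nm m ≤ U) →
    ∑ m ∈ S, ‖Tq c D (cb (m * h))‖ ^ 4 ≤ C * G ^ 4 * Y ^ (2 * ν + 6615 / 10000) *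
      ((U / KK Y α β) ^ (1 / 3 : ℝ) + U / KK Y α β) := by
  classical
  obtain ⟨C, H⟩ := hA ee ee_pos
  obtain ⟨C₁, hC₁, H₁⟩ := dn_le_ee 1
  refine ⟨48 * C₁ ^ 2 * max C 0, by positivity, fun Y α β ν U G c D h S hP hν0 hν hG hc hcG hD hU hUY hS => ?_⟩
  have hY := hP.pos
  have he := ee_eq
  have hN : 1 ≤ Y ^ ν := hP.one_le hν0
  have hsq : (Y ^ ν) ^ 2 = Y ^ (2 * ν) := by
    rw [mul_comm, Real.rpow_mul hY.le, Real.rpow_two]
  set M : ℝ := 4 * (Y ^ ν) ^ 2 with hM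
  have hM1 : 1 ≤ M := by rw [hM]; nlinarith
  have hMY : M ≤ Y := by
    have h1 := hP.big
    have h2 : 0 < Y ^ (2 * ν) := Real.rpow_pos_of_pos hY _
    calc M ≤ Y ^ ee * Y ^ (2 * ν) := by rw [hM, hsq]; nlinarith
      _ = Y ^ (ee + 2 * ν) := (Real.rpow_add hY _ _).symm
      _ ≤ Y := hP.le (by linarith)
  have hYe : 0 < Y ^ ee := Real.rpow_pos_of_pos hY _
  set Λ : ℝ := G ^ 2 * (C₁ * Y ^ ee) with hΛ
  have hΛ0 : 0 < Λ := by positivity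
  set f : O → ℂ := fun m => c (D * m) with hf
  set g : O → ℂ := fun n => if n ∈ pball M then cv f f n * cb h n / (Λ : ℂ) else 0 with hg
  have hg1 : ∀ n, ‖g n‖ ≤ 1 := fun n => by
    simp only [hg]
    split_ifs with hn
    · rw [norm_div, Complex.norm_real, Real.norm_of_nonneg hΛ0.le, div_le_one hΛ0, norm_mul]
      have h1 := mma_cv_le (f := f) (fun n => hcG _) (mem_pball.1 hn).2
      have h2 := H₁ Y n hP.one ((mem_pball.1 hn).1.trans hMY)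
      rw [pow_one] at h2
      calc _ ≤ G ^ 2 * dn n * 1 :=
          mul_le_mul h1 (norm_cb_le _ _) (norm_nonneg _) (mul_nonneg (sq_nonneg _) (dn_nonneg n))
        _ ≤ Λ := by rw [mul_one, hΛ]; gcongr
    · simp
  have key := H U M 1 (1 / 2) S g hU hM1 le_rfl le_rfl
    (fun k hk => ⟨(hS k hk).1, (hS k hk).2, fun k₀ m e => by
      have h0 : k₀ ≠ 0 := fun h0 => (hS k hk).1 (by rw [e, h0, zero_mul])
      linarith [one_le_nm h0]⟩) hg1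
    (fun n _ => ⟨1, fun p hp hp1 => absurd hp1 hp.not_dvd_one, one_dvd n, by simp⟩)
  have e1 : ∀ m : O, ‖Tq c D (cb (m * h))‖ ^ 4 = Λ ^ 2 * ‖∑ n ∈ pball M, g n * cb m n‖ ^ 2 := fun m => by
    have e2 : Tq c D (cb (m * h)) ^ 2 = (Λ : ℂ) * ∑ n ∈ pball M, g n * cb m n := by
      rw [Tq_sq hN hc hD, Finset.mul_sum]
      refine Finset.sum_congr rfl fun n hn => ?_
      have hΛc : (Λ : ℂ) ≠ 0 := Complex.ofReal_ne_zero.2 hΛ0.ne'
      simp only [hg]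
      rw [if_pos hn, cb_mul_left, ← hf]
      field_simp
    calc ‖Tq c D (cb (m * h))‖ ^ 4 = ‖Tq c D (cb (m * h)) ^ 2‖ ^ 2 := by rw [norm_pow]; ring
      _ = _ := by rw [e2, norm_mul, Complex.norm_real, Real.norm_of_nonneg hΛ0.le, mul_pow]
  simp only [e1]
  rw [← Finset.mul_sum]
  have hK : 0 < KK Y α β := Real.rpow_pos_of_pos hY _
  have hv : 0 < U / KK Y α β := by positivity
  have hsz := mma_size hP hν hv
  rw [mul_div_cancel₀ _ hK.ne'] at hsz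
  rw [div_one, Real.one_rpow, mul_one] at key
  have hUM : (U * M) ^ ee ≤ Y ^ (2 * ee) := by
    rw [Real.rpow_mul hY.le, Real.rpow_two, sq]
    exact Real.rpow_le_rpow (by positivity) (mul_le_mul hUY hMY (by linarith) hY.le) ee_pos.le
  set W : ℝ := U + U ^ (1 / 3 : ℝ) * (1 / 2 : ℝ) ^ (-(3 / 10) : ℝ) * M + (U * M) ^ (2 / 3 : ℝ) with hW
  have hW0 : 0 ≤ W := by positivity
  have h4 : Y ^ (4 * ee) = (Y ^ ee) ^ 2 * Y ^ (2 * ee) := by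
    rw [← Real.rpow_two, ← Real.rpow_mul hY.le, ← Real.rpow_add hY]
    congr 1
    ring
  have h5 : Y ^ (2 * ν + 6615 / 10000) = (Y ^ ν) ^ 2 * Y ^ (6615 / 10000 : ℝ) := by
    rw [Real.rpow_add hY, hsq]
  have hm := le_max_left C 0
  have hm0 := le_max_right C 0
  calc Λ ^ 2 * ∑ m ∈ S, ‖∑ n ∈ pball M, g n * cb m n‖ ^ 2 ≤ Λ ^ 2 * (C * (U * M) ^ ee * W * M) := by gcongr
    _ ≤ Λ ^ 2 * (max C 0 * Y ^ (2 * ee) * W * M) := by gcongr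
    _ = G ^ 4 * C₁ ^ 2 * max C 0 * M * (Y ^ (4 * ee) * W) := by rw [h4, hΛ]; ring
    _ ≤ G ^ 4 * C₁ ^ 2 * max C 0 * M * (12 * Y ^ (6615 / 10000 : ℝ) *
        ((U / KK Y α β) ^ (1 / 3 : ℝ) + U / KK Y α β)) := by gcongr
    _ = _ := by rw [h5, hM]; ring

theorem mmb_max (C : ℝ) {t : ℝ} (ht : 0 ≤ t) :
    C * (1 + 2 * t) ^ C ≤ max C 0 * 2 ^ max C 0 * (1 + t) ^ max C 0 := by
  rcases le_total 0 C with h | h
  · rw [max_eq_left h, mul_assoc, ← Real.mul_rpow (by norm_num) (by positivity)]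
    exact mul_le_mul_of_nonneg_left (Real.rpow_le_rpow (by positivity) (by linarith) h) h
  · rw [max_eq_right h]
    have : 0 ≤ (1 + 2 * t) ^ C := by positivity
    nlinarith

theorem mmb_exp : Real.exp 3 ≤ 1000 := by
  have h1 : Real.exp 3 = Real.exp 1 ^ 3 := by
    rw [← Real.exp_nat_mul]; norm_num
  have h2 := Real.exp_one_lt_d9
  have h3 : Real.exp 1 ^ 3 ≤ 10 ^ 3 := pow_le_pow_left₀ (Real.exp_pos _).le (by linarith) 3
  linarith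

theorem mmb_alg {M U : ℝ} (hM : 0 < M) (hU : 0 < U) :
    M ^ 2 * (U + U ^ 2 / M ^ 2 + (U * (U ^ 2 / M ^ 2)) ^ (2 / 3 : ℝ)) =
      M ^ 2 * U + U ^ 2 + U ^ 2 * M ^ (2 / 3 : ℝ) := by
  have e1 : (U * (U ^ 2 / M ^ 2)) ^ (2 / 3 : ℝ) = U ^ 2 / M ^ (4 / 3 : ℝ) := by
    have e : U * (U ^ 2 / M ^ 2) = U ^ (3 : ℝ) / M ^ (2 : ℝ) := by
      rw [show (3 : ℝ) = ((3 : ℕ) : ℝ) by norm_num, show (2 : ℝ) = ((2 : ℕ) : ℝ) by norm_num,
        Real.rpow_natCast, Real.rpow_natCast]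
      ring
    rw [e, Real.div_rpow (by positivity) (by positivity), ← Real.rpow_mul hU.le,
      ← Real.rpow_mul hM.le]
    norm_num
  have e2 : M ^ 2 = M ^ (2 / 3 : ℝ) * M ^ (4 / 3 : ℝ) := by
    rw [← Real.rpow_add hM]; norm_num
  have e3 : M ^ 2 * (U ^ 2 / M ^ (4 / 3 : ℝ)) = U ^ 2 * M ^ (2 / 3 : ℝ) := by
    have : M ^ (4 / 3 : ℝ) ≠ 0 := by positivity
    rw [e2]
    field_simp
  rw [e1, mul_add, mul_add, e3]
  field_simp

/-- `StMom` with `r = 2`, `ε = ee`, `Z = Y²`, rows `S.image (· * h)` of norm `≤ U' = U L⁷`, `M i = M`, `t i = t`.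
The bound is `M² U' + U'² + U'² M^(2/3)`, increasing in `M ≤ 21 Y^μ`; exponents (`κ = 2 β - α`):
`2 μ + κ`, `2 κ`, `2 κ + 2 μ / 3`, all `≤ 1.6614 - 2 ν`.  Take `E = max C 0`, `1 + 2 |t| ≤ 2 (1 + |t|)`. -/
theorem mom_p (hM : StMom) (l : ℤ) : ∃ E C : ℝ, 0 ≤ E ∧ 0 ≤ C ∧ ∀ (Y α ν μ U M t : ℝ) (h : O)
    (S : Finset O), Par Y α (ν + μ - ee) → 0 ≤ ν → ν ≤ 246 / 1000 → (Y ^ 2)⁻¹ ≤ M →
    M ≤ Y ^ μ * Real.exp 3 → h ≠ 0 → nm h ≤ LL Y ^ 7 → 1 ≤ U → U ≤ Y →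
    (∀ m ∈ S, m ≠ 0 ∧ nm m ≤ U ∧ ¬ Cube (m * h)) →
    ∑ m ∈ S, ‖PSc l (m * h) M t‖ ^ 4 ≤ C * (1 + |t|) ^ E * Y ^ (16615 / 10000 - 2 * ν) * LL Y ^ 14 *
      (U / KK Y α (ν + μ - ee) + (U / KK Y α (ν + μ - ee)) ^ 2) := by
  classical
  obtain ⟨C, hC⟩ := hM l 2 ee (by norm_num) ee_pos
  refine ⟨max C 0, max C 0 * 2 ^ max C 0 * 2, le_max_right _ _, ?_,
    fun Y α ν μ U M t h S hP hν0 hν hM1 hM2 hh hhL hU1 hUY hS => ?_⟩
  · have := le_max_right C 0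
    positivity
  have hY := hP.pos
  have he := ee_eq
  have ha1 := hP.a1
  have ha2 := hP.a2
  have hb1 := hP.b1
  have hb2 := hP.b2
  have hM0 : 0 < M := lt_of_lt_of_le (by positivity) hM1
  have hL1 : 1 ≤ LL Y := hP.one_le (by norm_num)
  have hL7 : 1 ≤ LL Y ^ 7 := one_le_pow₀ hL1
  have hL7' : LL Y ^ 7 ≤ Y := by
    rw [LL, ← Real.rpow_natCast, ← Real.rpow_mul hY.le]
    exact hP.le (by norm_num)
  have hM3 : M ≤ Y ^ (μ + ee) := by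
    rw [Real.rpow_add hY]
    exact hM2.trans (mul_le_mul_of_nonneg_left (mmb_exp.trans hP.big) (by positivity))
  have hM4 : M ≤ Y ^ 2 := by
    refine hM3.trans ?_
    rw [← Real.rpow_natCast]
    exact hP.mono (by push_cast; linarith)
  set U' := U * LL Y ^ 7 with hU'
  have hU'1 : 1 ≤ U' := one_le_mul_of_one_le_of_one_le hU1 hL7
  have key := hC (Y ^ 2) U' (fun _ => M) (fun _ => t) (S.image (· * h))
    (by nlinarith [hP.two]) hU'1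
    (by rw [sq]; exact mul_le_mul hUY hL7' (by linarith) hY.le)
    (fun _ => ⟨hM1, hM4⟩)
    (fun k hk => by
      obtain ⟨m, hm, rfl⟩ := Finset.mem_image.1 hk
      obtain ⟨a1, a2, a3⟩ := hS m hm
      refine ⟨mul_ne_zero a1 hh, ?_, a3⟩
      rw [nm_mul]
      exact mul_le_mul a2 hhL (nm_nonneg _) (by linarith))
  rw [Finset.sum_image (fun a _ b _ hab => mul_right_cancel₀ hh hab)] at key
  simp only [Finset.prod_const, Finset.sum_const, Finset.card_univ, Fintype.card_fin, norm_pow,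
    ← pow_mul, nsmul_eq_mul, Nat.cast_ofNat] at key
  refine key.trans ?_
  rw [mul_assoc _ (M ^ 2), mmb_alg hM0 (by linarith)]
  set K := KK Y α (ν + μ - ee) with hK
  have hK0 : 0 < K := Real.rpow_pos_of_pos hY _
  set v := U / K with hv
  have hv0 : 0 ≤ v := div_nonneg (by linarith) hK0.le
  have hUv : U' = v * K * LL Y ^ 7 := by
    rw [hU', hv]; field_simp
  set W := Y ^ (16615 / 10000 - 2 * ν) with hW
  have hZ : (Y ^ 2) ^ ee = Y ^ (2 * ee) := by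
    rw [← Real.rpow_natCast, ← Real.rpow_mul hY.le]; norm_num
  have hK2 : K ^ 2 = Y ^ (2 * (2 * (ν + μ - ee) - α)) := by
    rw [hK, KK, ← Real.rpow_natCast, ← Real.rpow_mul hY.le]
    congr 1
    push_cast
    ring
  have hMM : M ^ 2 ≤ Y ^ (2 * (μ + ee)) := by
    refine (pow_le_pow_left₀ hM0.le hM3 2).trans (le_of_eq ?_)
    rw [← Real.rpow_natCast, ← Real.rpow_mul hY.le]
    congr 1
    push_cast
    ring
  have hM23 : M ^ (2 / 3 : ℝ) ≤ Y ^ ((μ + ee) * (2 / 3)) := by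
    rw [Real.rpow_mul hY.le]
    exact Real.rpow_le_rpow hM0.le hM3 (by norm_num)
  have b1 : Y ^ (2 * ee) * (M ^ 2 * K) ≤ W := by
    calc Y ^ (2 * ee) * (M ^ 2 * K) ≤ Y ^ (2 * ee) * (Y ^ (2 * (μ + ee)) * K) := by gcongr
      _ = Y ^ (2 * ee + (2 * (μ + ee) + (2 * (ν + μ - ee) - α))) := by
          rw [hK, KK, ← Real.rpow_add hY, ← Real.rpow_add hY]
      _ ≤ W := hP.mono (by linarith)
  have b2 : Y ^ (2 * ee) * K ^ 2 ≤ W := by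
    rw [hK2, ← Real.rpow_add hY]
    exact hP.mono (by linarith)
  have b3 : Y ^ (2 * ee) * (K ^ 2 * M ^ (2 / 3 : ℝ)) ≤ W := by
    calc Y ^ (2 * ee) * (K ^ 2 * M ^ (2 / 3 : ℝ))
        ≤ Y ^ (2 * ee) * (K ^ 2 * Y ^ ((μ + ee) * (2 / 3))) := by gcongr
      _ = Y ^ (2 * ee + (2 * (2 * (ν + μ - ee) - α) + (μ + ee) * (2 / 3))) := by
          rw [hK2, ← Real.rpow_add hY, ← Real.rpow_add hY]
      _ ≤ W := hP.mono (by linarith)
  have hW0 : 0 ≤ W := by positivity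
  have hL14 : LL Y ^ 7 ≤ LL Y ^ 14 := pow_le_pow_right₀ hL1 (by norm_num)
  have b4 : Y ^ (2 * ee) * (M ^ 2 * U' + U' ^ 2 + U' ^ 2 * M ^ (2 / 3 : ℝ)) ≤
      2 * (W * LL Y ^ 14 * (v + v ^ 2)) := by
    have c1 : Y ^ (2 * ee) * (M ^ 2 * K) * (LL Y ^ 7 * v) ≤ W * (LL Y ^ 14 * v) := by gcongr
    have c2 : Y ^ (2 * ee) * K ^ 2 * (LL Y ^ 14 * v ^ 2) ≤ W * (LL Y ^ 14 * v ^ 2) := by gcongr
    have c3 : Y ^ (2 * ee) * (K ^ 2 * M ^ (2 / 3 : ℝ)) * (LL Y ^ 14 * v ^ 2) ≤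
        W * (LL Y ^ 14 * v ^ 2) := by gcongr
    have c4 : 0 ≤ W * (LL Y ^ 14 * v) := by positivity
    rw [hUv]
    nlinarith
  have b5 := mmb_max C (abs_nonneg t)
  have hE := le_max_right C 0
  have b6 : 0 ≤ Y ^ (2 * ee) * (M ^ 2 * U' + U' ^ 2 + U' ^ 2 * M ^ (2 / 3 : ℝ)) := by positivity
  rw [hZ]
  calc C * Y ^ (2 * ee) * (1 + 2 * |t|) ^ C * (M ^ 2 * U' + U' ^ 2 + U' ^ 2 * M ^ (2 / 3 : ℝ))
      = (C * (1 + 2 * |t|) ^ C) *
          (Y ^ (2 * ee) * (M ^ 2 * U' + U' ^ 2 + U' ^ 2 * M ^ (2 / 3 : ℝ))) := by ring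
    _ ≤ (max C 0 * 2 ^ max C 0 * (1 + |t|) ^ max C 0) * (2 * (W * LL Y ^ 14 * (v + v ^ 2))) :=
        mul_le_mul b5 b4 b6 (by positivity)
    _ = _ := by ring

theorem mmc_sum {R : O} (hR : Prim R) (S : Finset O) (f : O → O × O → O → ℂ) {B : ℝ} (hB : 0 ≤ B)
    (h : ∀ p ∈ anti R, ∀ δ ∈ pdiv p.2, ∑ m ∈ S, ‖f m p δ‖ ^ 2 ≤ B) :
    ∑ m ∈ S, ‖∑ p ∈ anti R, ∑ δ ∈ pdiv p.2, f m p δ‖ ^ 2 ≤ dn R ^ 4 * B := by
  have hd := dn_nonneg R
  have h1 : ∀ p ∈ anti R, ((pdiv p.2).card : ℝ) ≤ dn R := fun p hp =>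
    dn_le_of_dvd hR.ne_zero ((mem_anti.1 hp).2.2 ▸ dvd_mul_left _ _)
  calc ∑ m ∈ S, ‖∑ p ∈ anti R, ∑ δ ∈ pdiv p.2, f m p δ‖ ^ 2
      ≤ ∑ m ∈ S, dn R * ∑ p ∈ anti R, dn R * ∑ δ ∈ pdiv p.2, ‖f m p δ‖ ^ 2 := by
        refine Finset.sum_le_sum fun m _ => (M1.norm_sum_sq_le _ _).trans ?_
        rw [card_anti hR]
        refine mul_le_mul_of_nonneg_left (Finset.sum_le_sum fun p hp => ?_) hd
        exact (M1.norm_sum_sq_le _ _).trans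
          (mul_le_mul_of_nonneg_right (h1 p hp) (Finset.sum_nonneg fun _ _ => sq_nonneg _))
    _ = dn R * ∑ p ∈ anti R, dn R * ∑ δ ∈ pdiv p.2, ∑ m ∈ S, ‖f m p δ‖ ^ 2 := by
        rw [← Finset.mul_sum, Finset.sum_comm]
        congr 1
        refine Finset.sum_congr rfl fun p _ => ?_
        rw [← Finset.mul_sum, Finset.sum_comm]
    _ ≤ dn R * ∑ p ∈ anti R, dn R * (dn R * B) := by
        refine mul_le_mul_of_nonneg_left (Finset.sum_le_sum fun p hp => ?_) hd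
        refine mul_le_mul_of_nonneg_left ?_ hd
        refine (Finset.sum_le_card_nsmul _ _ _ (h p hp)).trans ?_
        rw [nsmul_eq_mul]
        exact mul_le_mul_of_nonneg_right (h1 p hp) hB
    _ = _ := by rw [Finset.sum_const, nsmul_eq_mul, card_anti hR]; ring

/-- `M2.hecke` (`mu_cb`, `Pp.dec`, `dec_pl`): at most `dn R ^ 2` terms `Tq c (p.1 δ) · Tq pl p.2`, so the sum is at
most `dn R ^ 4` times the largest `∑_m ‖Tq c D‖² ‖Tq pl E‖²`; Cauchy–Schwarz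
(`Finset.sum_mul_sq_le_sq_mul_sq`), `mom_c`, `norm_Tq_pl`, `mom_p` at `M / N E`, `prod_le_wv`. -/
theorem mom_cv (hA : StAllG) (hM : StMom) (l : ℤ) : ∃ E C : ℝ, 0 ≤ E ∧ 0 ≤ C ∧
    ∀ (Y α ν μ U M t G : ℝ) (c : O → ℂ) (R h : O) (S : Finset O), Par Y α (ν + μ - ee) → 0 ≤ ν →
    ν ≤ 246 / 1000 → Y ^ μ * Real.exp (-3) ≤ M → M ≤ Y ^ μ * Real.exp 3 → 0 < G → Pp (Y ^ ν) c →
    (∀ n, ‖c n‖ ≤ G) → Prim R → nm R ≤ LL Y ^ 3 → h ≠ 0 → nm h ≤ LL Y ^ 7 → 1 ≤ U → U ≤ Y →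
    (∀ m ∈ S, m ≠ 0 ∧ nm m ≤ U ∧ ¬ Cube (m * h)) →
    ∑ m ∈ S, ‖Tq (cv c (pl l M t)) R (cb (m * h))‖ ^ 2 ≤
      C * G ^ 2 * (1 + |t|) ^ E * Y ^ (11634 / 10000 : ℝ) * wv (U / KK Y α (ν + μ - ee)) := by
  obtain ⟨C1, hC1, h1⟩ := mom_c hA
  obtain ⟨E, C2, hE, hC2, h2⟩ := mom_p hM l
  obtain ⟨C3, hC3, h3⟩ := dn_le_ee 4
  refine ⟨E, C3 * (2 * (C1 + C2)), hE, by positivity, ?_⟩
  intro Y α ν μ U M t G c R h S hP hν0 hν1 hM1 hM2 hG hc hcG hR hRL hh hhL hU1 hUY hS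
  have hY := hP.pos
  have hY1 := hP.one
  have hμ : 0 ≤ μ := by have := hP.b1; rw [ee_eq] at this; linarith
  have hM0 : 0 < M := lt_of_lt_of_le (by positivity) hM1
  have hK : 0 < KK Y α (ν + μ - ee) := by unfold KK; positivity
  set v := U / KK Y α (ν + μ - ee) with hv
  have hv0 : 0 < v := by positivity
  have hw := wv_nonneg hv0.le
  have hL : 0 < LL Y := by unfold LL; positivity
  have hRY : nm R ≤ Y := by
    refine hRL.trans ?_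
    unfold LL
    rw [← Real.rpow_natCast, ← Real.rpow_mul hY.le]
    exact hP.le (by norm_num)
  have hYb : Real.exp 3 ≤ Y := by
    have e1 : Real.exp 3 = Real.exp 1 ^ 3 := by rw [← Real.exp_nat_mul]; norm_num
    have e2 : Real.exp 1 ^ 3 ≤ 3 ^ 3 := by
      gcongr; exact Real.exp_one_lt_d9.le.trans (by norm_num)
    have e3 := hP.le (x := ee) (by rw [ee_eq]; norm_num)
    have e4 := hP.big
    linarith
  set T := (1 + |t|) ^ E with hT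
  have hT1 : 1 ≤ T := Real.one_le_rpow (by linarith [abs_nonneg t]) hE
  set Bd := 2 * (C1 + C2) * G ^ 2 * T * (Y ^ (11615 / 10000 : ℝ) * LL Y ^ 7) * wv v with hBd
  have hBd0 : 0 ≤ Bd := by positivity
  have key : ∀ D E' : O, Prim D → Prim E' → E' ∣ R →
      ∑ m ∈ S, ‖Tq c D (cb (m * h))‖ ^ 2 * ‖Tq (pl l M t) E' (cb (m * h))‖ ^ 2 ≤ Bd := by
    intro D E' hD hE' hER
    have hn1 := one_le_nm hE'.ne_zero
    have hn2 := (nm_le_of_dvd hER hR.ne_zero).trans hRY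
    have a1 := h1 Y α _ ν U G c D h S hP hν0 hν1 hG hc hcG hD hU1 hUY fun m hm =>
      ⟨(hS m hm).1, (hS m hm).2.1⟩
    have a2 := h2 Y α ν μ U (M / nm E') t h S hP hν0 hν1 (by
      have b1 : Real.exp (-3) ≤ M := by
        refine le_trans ?_ hM1
        exact le_mul_of_one_le_left (Real.exp_pos _).le (hP.one_le hμ)
      have b2 : Y⁻¹ ≤ M := by
        refine le_trans ?_ b1
        rw [Real.exp_neg]; gcongr
      calc (Y ^ 2)⁻¹ = Y⁻¹ / Y := by field_simp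
        _ ≤ M / nm E' := by gcongr)
      ((div_le_self hM0.le hn1).trans hM2) hh hhL hU1 hUY hS
    rw [← hv] at a1 a2
    rw [← hT] at a2
    refine (pow_le_pow_iff_left₀ (Finset.sum_nonneg fun _ _ => by positivity) hBd0 two_ne_zero).1 ?_
    refine (Finset.sum_mul_sq_le_sq_mul_sq _ _ _).trans ?_
    simp only [← pow_mul, norm_Tq_pl l M t hE'.ne_zero]
    have a3 := prod_le_wv hv0
    have e1 : Y ^ (2 * ν + 6615 / 10000) * Y ^ (16615 / 10000 - 2 * ν) = (Y ^ (11615 / 10000 : ℝ)) ^ 2 := by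
      rw [← Real.rpow_add hY, ← Real.rpow_natCast, ← Real.rpow_mul hY.le]; congr 1; push_cast; ring
    have e2 : C1 * C2 * T ≤ (C1 + C2) ^ 2 * T ^ 2 := by
      have : C1 * C2 ≤ (C1 + C2) ^ 2 := by nlinarith [mul_nonneg hC1 hC2]
      have : T ≤ T ^ 2 := by nlinarith
      gcongr
    calc (∑ m ∈ S, ‖Tq c D (cb (m * h))‖ ^ (2 * 2)) * ∑ m ∈ S, ‖PSc l (m * h) (M / nm E') t‖ ^ (2 * 2)
        ≤ (C1 * G ^ 4 * Y ^ (2 * ν + 6615 / 10000) * (v ^ (1 / 3 : ℝ) + v)) *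
          (C2 * T * Y ^ (16615 / 10000 - 2 * ν) * LL Y ^ 14 * (v + v ^ 2)) :=
          mul_le_mul a1 a2 (Finset.sum_nonneg fun _ _ => by positivity) (by positivity)
      _ = C1 * C2 * T * (G ^ 4 * (Y ^ (2 * ν + 6615 / 10000) * Y ^ (16615 / 10000 - 2 * ν)) * LL Y ^ 14) *
          ((v ^ (1 / 3 : ℝ) + v) * (v + v ^ 2)) := by ring
      _ ≤ (C1 + C2) ^ 2 * T ^ 2 * (G ^ 4 * (Y ^ (2 * ν + 6615 / 10000) * Y ^ (16615 / 10000 - 2 * ν)) *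
          LL Y ^ 14) * (4 * wv v ^ 2) := by gcongr
      _ = _ := by rw [e1, hBd]; ring
  have main : ∑ m ∈ S, ‖Tq (cv c (pl l M t)) R (cb (m * h))‖ ^ 2 ≤ dn R ^ 4 * Bd := by
    simp only [fun m => M2.hecke hc.dec (dec_pl l hM0 t) (mu_cb (m * h)) hR]
    refine mmc_sum hR S (fun m p δ => mu δ * cb (m * h) δ * Tq c (p.1 * δ) (cb (m * h)) *
      Tq (pl l M t) p.2 (cb (m * h))) hBd0 fun p hp δ hδ => ?_
    obtain ⟨p1, p2, p3⟩ := mem_anti.1 hp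
    have hδ' := ((mem_pdiv p2.ne_zero).1 hδ).1
    refine le_trans (Finset.sum_le_sum fun m _ => ?_)
      (key (p.1 * δ) p.2 (p1.mul hδ') p2 (p3 ▸ dvd_mul_left _ _))
    rw [norm_mul, norm_mul, norm_mul, ← mul_pow]
    have b1 := norm_mu_le δ
    have b2 := norm_cb_le (m * h) δ
    gcongr
    calc ‖mu δ‖ * ‖cb (m * h) δ‖ * ‖Tq c (p.1 * δ) (cb (m * h))‖
        ≤ 1 * 1 * ‖Tq c (p.1 * δ) (cb (m * h))‖ := by gcongr
      _ = _ := by ring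
  refine main.trans ?_
  have e3 : Y ^ ee * (Y ^ (11615 / 10000 : ℝ) * LL Y ^ 7) ≤ Y ^ (11634 / 10000 : ℝ) := by
    unfold LL
    rw [← Real.rpow_natCast, ← Real.rpow_mul hY.le, ← Real.rpow_add hY, ← Real.rpow_add hY]
    exact hP.mono (by rw [ee_eq]; norm_num)
  calc dn R ^ 4 * Bd ≤ C3 * Y ^ ee * Bd := by gcongr; exact h3 Y R hY1 hRY
    _ = C3 * (2 * (C1 + C2)) * G ^ 2 * T * (Y ^ ee * (Y ^ (11615 / 10000 : ℝ) * LL Y ^ 7)) * wv v := by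
        rw [hBd]; ring
    _ ≤ _ := by gcongr

end Crest.Agent.R12.QA
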