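import Crest.Agent.R12.QA.Mom

/-! Row 12, block QA: the bound for the dual rows. -/

set_option autoImplicit false

namespace Crest.Agent.R12.QA

open Crest.Agent.R17
open Crest.Agent.R17.M2 (cv Tq Dec Mu)
open scoped ComplexConjugate

theorem rwa_one {Y α β : ℝ} (h : Par Y α β) :
    LL Y ^ 2 * Y ^ (11634 / 10000 : ℝ) ≤ Y ^ (7 / 6 + 50 * ee) * LL Y ^ (-(4 / 3) : ℝ) := by
  unfold LL
  rw [← Real.rpow_natCast, ← Real.rpow_mul h.pos.le, ← Real.rpow_mul h.pos.le, ← Real.rpow_add h.pos,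
    ← Real.rpow_add h.pos]
  refine h.mono ?_
  rw [ee_eq]; norm_num

theorem rwa_three {Y α β : ℝ} (h : Par Y α β) :
    KK Y α β * LL Y ^ 2 ≤ Y ^ (7 / 6 + 50 * ee) * LL Y ^ (-(4 / 3) : ℝ) := by
  unfold LL KK
  rw [← Real.rpow_natCast, ← Real.rpow_mul h.pos.le, ← Real.rpow_mul h.pos.le, ← Real.rpow_add h.pos,
    ← Real.rpow_add h.pos]
  refine h.mono ?_
  have h1 := h.a1
  have h2 := h.b2
  rw [ee_eq] at *
  push_cast
  linarith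

/-- `rows_split` with `L = LL Y`; `mom_cv` at `R = l d²`, row factor `h l³` (`N h ≤ (N l)⁴`, `cube_mul_cube_iff`);
`rows_large` (`norm_cv_le`); `tl_le`, `#S ≤ 11 U = 11 K v`, `#pball L ≤ 11 L`. -/
theorem rows_small (hA : StAllG) (hM : StMom) (l : ℤ) : ∃ E C : ℝ, 0 ≤ E ∧ 0 ≤ C ∧
    ∀ (Y α ν μ U M t G : ℝ) (c : O → ℂ) (r h : O) (S : Finset O), Par Y α (ν + μ - ee) → 0 ≤ ν →
    ν ≤ 246 / 1000 → Y ^ μ * Real.exp (-3) ≤ M → M ≤ Y ^ μ * Real.exp 3 → 0 < G → Pp (Y ^ ν) c →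
    (∀ n, ‖c n‖ ≤ G) → PSq r → nm r ≤ LL Y → h ∣ r ^ 4 → 1 ≤ U → U ≤ Y →
    (∀ m ∈ S, m ≠ 0 ∧ nm m ≤ U ∧ ¬ Cube (m * h)) →
    ∑ m ∈ S, ‖∑ n ∈ ball (XX Y (ν + μ - ee)), gam (cv c (pl l M t)) (Y ^ (ν + μ - ee))
        (XX Y (ν + μ - ee)) (r * n) * cb (m * h) n‖ ^ 2 ≤
      C * G ^ 2 * (1 + |t|) ^ E * Y ^ (7 / 6 + 50 * ee) *
        (LL Y ^ (-2 : ℝ) * (U / KK Y α (ν + μ - ee)) ^ (1 / 3 : ℝ) +
          LL Y ^ (-(4 / 3) : ℝ) * wv (U / KK Y α (ν + μ - ee))) := by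
  obtain ⟨E, C₁, hE, hC₁, h1⟩ := mom_cv hA hM l
  obtain ⟨C₂, hC₂, h2⟩ := rows_large hA
  obtain ⟨C₃, hC₃, h3⟩ := tl_le
  refine ⟨E, 3 * (121 * C₁ + C₂ + 1331 * C₃ ^ 2), hE, by positivity, ?_⟩
  intro Y α ν μ U M t G c r h S hP hν hν' hM1 hM2 hG hc hcG hr hrL hh hU1 hUY hS
  have hY := hP.pos
  have hM0 : 0 < M := lt_of_lt_of_le (by positivity) hM1
  have hf : Dec (cv c (pl l M t)) := hc.dec.cv (dec_pl l hM0 t)
  refine (rows_split hf hr _ _ (LL Y) h S).trans ?_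
  have hL1 : 1 ≤ LL Y := hP.one_le (by norm_num)
  have hK : 0 < KK Y α (ν + μ - ee) := by unfold KK; positivity
  have hr0 := hr.ne_zero
  have hr1 := one_le_nm hr0
  have hh0 : h ≠ 0 := ne_zero_of_dvd_ne_zero (pow_ne_zero 4 hr0) hh
  have hcard : ((pball (LL Y)).card : ℝ) ≤ 11 * LL Y :=
    le_trans (by
      exact_mod_cast Finset.card_le_card fun m hm => mem_ball.2 (mem_pball.1 hm).1) (card_ball_le hL1)
  have hScard : (S.card : ℝ) ≤ 11 * U := by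
    refine le_trans ?_ (card_ball_le hU1)
    exact_mod_cast Finset.card_le_card fun m hm => mem_ball.2 (hS m hm).2.1
  have hnh : nm (h * r ^ 3) ≤ LL Y ^ 7 := by
    rw [nm_mul, show LL Y ^ 7 = LL Y ^ 4 * LL Y ^ 3 by ring]
    refine mul_le_mul ?_ ?_ (nm_nonneg _) (by positivity)
    · refine (nm_le_of_dvd hh (pow_ne_zero 4 hr0)).trans ?_
      rw [nm_pow]; exact pow_le_pow_left₀ (by linarith) hrL 4
    · rw [nm_pow]; exact pow_le_pow_left₀ (by linarith) hrL 3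
  have hS' : ∀ m ∈ S, m ≠ 0 ∧ nm m ≤ U ∧ ¬ Cube (m * (h * r ^ 3)) := fun m hm =>
    ⟨(hS m hm).1, (hS m hm).2.1, by rw [← mul_assoc, cube_mul_cube_iff hr0]; exact (hS m hm).2.2⟩
  set v := U / KK Y α (ν + μ - ee) with hv
  have hv0 : 0 < v := by positivity
  have hw0 : 0 ≤ wv v := wv_nonneg hv0.le
  have hT : 1 ≤ (1 + |t|) ^ E := Real.one_le_rpow (by linarith [abs_nonneg t]) hE
  set T := (1 + |t|) ^ E with hTdef
  set P := Y ^ (7 / 6 + 50 * ee) with hPdef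
  have hP0 : 0 < P := by positivity
  set a := LL Y ^ (-2 : ℝ) * v ^ (1 / 3 : ℝ) with ha
  have ha0 : 0 ≤ a := by positivity
  set q := LL Y ^ (-(4 / 3) : ℝ) with hq
  have hq0 : 0 ≤ q := by positivity
  have hb0 : 0 ≤ q * wv v := by positivity
  have k1 : ((pball (LL Y)).card : ℝ) * ∑ d ∈ pball (LL Y), ∑ k ∈ S,
      ‖Tq (cv c (pl l M t)) (r * d ^ 2) (cb (k * (h * r ^ 3)))‖ ^ 2 ≤
      121 * C₁ * (G ^ 2 * T * P * (a + q * wv v)) := by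
    have hb : ∀ d ∈ pball (LL Y), ∑ k ∈ S,
        ‖Tq (cv c (pl l M t)) (r * d ^ 2) (cb (k * (h * r ^ 3)))‖ ^ 2 ≤
        C₁ * G ^ 2 * T * Y ^ (11634 / 10000 : ℝ) * wv v := by
      intro d hd
      obtain ⟨hdL, hdP⟩ := mem_pball.1 hd
      refine h1 Y α ν μ U M t G c (r * d ^ 2) (h * r ^ 3) S hP hν hν' hM1 hM2 hG hc hcG
        (hr.1.mul (hdP.pow 2)) ?_ (mul_ne_zero hh0 (pow_ne_zero 3 hr0)) hnh hU1 hUY hS'
      rw [nm_mul, nm_pow, show LL Y ^ 3 = LL Y * LL Y ^ 2 by ring]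
      exact mul_le_mul hrL (pow_le_pow_left₀ (nm_nonneg _) hdL 2) (by positivity [nm_nonneg d])
        (by positivity)
    have h4 := Finset.sum_le_card_nsmul _ _ _ hb
    rw [nsmul_eq_mul] at h4
    have h5 : 0 ≤ C₁ * G ^ 2 * T * Y ^ (11634 / 10000 : ℝ) * wv v := by positivity
    calc _ ≤ (11 * LL Y) * ((11 * LL Y) * (C₁ * G ^ 2 * T * Y ^ (11634 / 10000 : ℝ) * wv v)) :=
          mul_le_mul hcard (h4.trans (mul_le_mul_of_nonneg_right hcard h5))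
            (Finset.sum_nonneg fun _ _ => Finset.sum_nonneg fun _ _ => by positivity) (by positivity)
      _ = 121 * C₁ * (G ^ 2 * T * ((LL Y ^ 2 * Y ^ (11634 / 10000 : ℝ)) * wv v)) := by ring
      _ ≤ 121 * C₁ * (G ^ 2 * T * ((P * q) * wv v)) := by
          exact mul_le_mul_of_nonneg_left (mul_le_mul_of_nonneg_left
            (mul_le_mul_of_nonneg_right (rwa_one hP) hw0) (by positivity)) (by positivity)
      _ ≤ _ := by
          refine mul_le_mul_of_nonneg_left ?_ (by positivity)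
          rw [mul_assoc (G ^ 2 * T) P]
          refine mul_le_mul_of_nonneg_left ?_ (by positivity)
          nlinarith [mul_nonneg hP0.le ha0]
  have k2 : ∑ k ∈ S, ‖∑ n ∈ pball (XX Y (ν + μ - ee)), lg (cv c (pl l M t)) (Y ^ (ν + μ - ee))
      (XX Y (ν + μ - ee)) (LL Y) r n * cb (h * r ^ 3) n * cb k n‖ ^ 2 ≤
      C₂ * (G ^ 2 * T * P * (a + q * wv v)) := by
    refine (h2 Y α (ν + μ - ee) U G (cv c (pl l M t)) r (h * r ^ 3) S hP hG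
      (fun b hb => norm_cv_le hcG l M t hb) hr.1 hU1 hUY fun m hm => ⟨(hS m hm).1, (hS m hm).2.1⟩).trans ?_
    have h6 : 0 ≤ C₂ * G ^ 2 * P * (a + q * wv v) := by positivity
    calc C₂ * G ^ 2 * P * (a + q * wv v) ≤ T * (C₂ * G ^ 2 * P * (a + q * wv v)) :=
          le_mul_of_one_le_left h6 hT
      _ = _ := by ring
  have k3 : (S.card : ℝ) * (((pball (LL Y)).card : ℝ) * tl (cv c (pl l M t)) (Y ^ (ν + μ - ee))
      (XX Y (ν + μ - ee))) ^ 2 ≤ 1331 * C₃ ^ 2 * (G ^ 2 * T * P * (a + q * wv v)) := by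
    have h7 : tl (cv c (pl l M t)) (Y ^ (ν + μ - ee)) (XX Y (ν + μ - ee)) ≤ C₃ * G :=
      (h3 l Y α ν μ M t G c hP hν hν' hM1 hM2 hc hcG).trans (div_le_self (by positivity) hP.one)
    have h8 := tl_nonneg (cv c (pl l M t)) (Y ^ (ν + μ - ee)) (XX Y (ν + μ - ee))
    have hU : U = KK Y α (ν + μ - ee) * v := (mul_div_cancel₀ U hK.ne').symm
    have hvw : v ≤ wv v := by
      have := rpow_le_wv (θ := 1) hv0 (by norm_num) (by norm_num)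
      rwa [Real.rpow_one] at this
    calc _ ≤ (11 * U) * ((11 * LL Y) * (C₃ * G)) ^ 2 :=
          mul_le_mul hScard (pow_le_pow_left₀ (mul_nonneg (Nat.cast_nonneg _) h8)
            (mul_le_mul hcard h7 h8 (by positivity)) 2) (sq_nonneg _) (by positivity)
      _ = 1331 * C₃ ^ 2 * (G ^ 2 * 1 * ((KK Y α (ν + μ - ee) * LL Y ^ 2) * v)) := by
          rw [mul_right_comm (KK Y α (ν + μ - ee)), ← hU]; ring
      _ ≤ 1331 * C₃ ^ 2 * (G ^ 2 * T * ((P * q) * wv v)) := by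
          exact mul_le_mul_of_nonneg_left (mul_le_mul (mul_le_mul_of_nonneg_left hT (by positivity))
            (mul_le_mul (rwa_three hP) hvw hv0.le (by positivity)) (by positivity) (by positivity))
            (by positivity)
      _ ≤ _ := by
          refine mul_le_mul_of_nonneg_left ?_ (by positivity)
          rw [mul_assoc (G ^ 2 * T) P]
          refine mul_le_mul_of_nonneg_left ?_ (by positivity)
          nlinarith [mul_nonneg hP0.le ha0]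
  calc _ ≤ 3 * (121 * C₁ * (G ^ 2 * T * P * (a + q * wv v)) + C₂ * (G ^ 2 * T * P * (a + q * wv v)) +
        1331 * C₃ ^ 2 * (G ^ 2 * T * P * (a + q * wv v))) := by gcongr
    _ = _ := by ring

theorem rwb_far {Y α β U θ : ℝ} (h : Par Y α β) (hU : Y < U) (hθ : θ ≤ 3 / 2) :
    (U / KK Y α β) ^ θ ≤ LL Y ^ (-(4 / 3) : ℝ) * wv (U / KK Y α β) := by
  have hY := h.pos
  have hK : 0 < KK Y α β := Real.rpow_pos_of_pos hY _
  have he := ee_eq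
  have h1 : Y ^ (1 / 3000 : ℝ) ≤ U / KK Y α β := by
    rw [le_div_iff₀ hK, KK, ← Real.rpow_add hY]
    exact (h.le (by linarith [h.a1, h.b2])).trans hU.le
  have h2 : 1 ≤ U / KK Y α β := (h.one_le (by norm_num)).trans h1
  generalize U / KK Y α β = v at h1 h2
  have hv : 0 < v := by linarith
  have h3 : v ^ (-1 : ℝ) ≤ LL Y ^ (-(4 / 3) : ℝ) := by
    rw [LL, ← Real.rpow_mul hY.le, show (1 / 4000 * -(4 / 3) : ℝ) = 1 / 3000 * -1 by norm_num,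
      Real.rpow_mul hY.le]
    exact Real.rpow_le_rpow_of_nonpos (Real.rpow_pos_of_pos hY _) h1 (by norm_num)
  calc v ^ θ ≤ v ^ (-1 + 5 / 2 : ℝ) := Real.rpow_le_rpow_of_exponent_le h2 (by linarith)
    _ = v ^ (-1 : ℝ) * v ^ (5 / 2 : ℝ) := Real.rpow_add hv _ _
    _ ≤ _ := mul_le_mul h3 (rpow_le_wv hv (by norm_num) le_rfl) (Real.rpow_nonneg hv.le _)
        ((Real.rpow_nonneg hv.le _).trans h3)

theorem rwb_tw {k : ℕ} {C Y α β ν : ℝ} {c : O → ℂ} {z : ℂ} (h : Par Y α β)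
    (hC : ∀ n : O, nm n ≤ Y → dn n ^ k ≤ C * Y ^ ee) (hC0 : 0 ≤ C) (hν : ν ≤ 246 / 1000)
    (hc : Pp (Y ^ ν) c) (hd : Dv k c) (hz : |z.re| ≤ 3) (n : O) :
    ‖c n * ((nm n / Y ^ ν : ℝ) : ℂ) ^ z‖ ≤ 8 * C * Y ^ ee := by
  have hY := h.pos
  have hN : 0 < Y ^ ν := Real.rpow_pos_of_pos hY _
  have he := ee_eq
  by_cases h0 : c n = 0
  · rw [h0, zero_mul, norm_zero]
    positivity
  obtain ⟨-, h1, h2⟩ := hc n h0
  have h3 : nm n ≤ Y := by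
    refine h2.trans (le_trans ?_ (h.le (x := ee + ν) (by linarith)))
    rw [Real.rpow_add hY]
    exact mul_le_mul_of_nonneg_right (by linarith [h.big]) hN.le
  have h4 : 1 ≤ nm n / Y ^ ν := (one_le_div hN).2 h1
  have h5 : nm n / Y ^ ν ≤ 2 := (div_le_iff₀ hN).2 h2
  have h6 : (nm n / Y ^ ν) ^ z.re ≤ 8 := by
    calc (nm n / Y ^ ν) ^ z.re ≤ (nm n / Y ^ ν) ^ (3 : ℝ) :=
          Real.rpow_le_rpow_of_exponent_le h4 (abs_le.1 hz).2
      _ ≤ 2 ^ (3 : ℝ) := Real.rpow_le_rpow (by linarith) h5 (by norm_num)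
      _ = 8 := by norm_num
  rw [norm_mul, Complex.norm_cpow_eq_rpow_re_of_pos (by linarith), mul_assoc, mul_comm (8 : ℝ)]
  exact mul_le_mul ((hd n).trans (hC n h3)) h6 (Real.rpow_nonneg (by linarith) _) (by positivity)

/-- Three cases.  `LL Y < N r`: `rows_gen` (`supp_gam`, `dv_gam`), `rpow_le_wv`.  `N r ≤ LL Y`, `Y < U`: `rows_gen`,
`N r ≥ 1`, and `v = U / K ≥ Y^(1/2 - 3 ee)` gives `v^θ ≤ L^(-4/3) v^(5/2)` for `θ ≤ 1 + ee`.
`N r ≤ LL Y`, `U ≤ Y`: `twist_cv` with `N = Y^ν`, `M = Y^μ` (`‖κ‖ ≤ Y^(3 ee) exp (9/2)`), `rows_small` with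
`G = 8 C Y^ee` (`dn_le_ee`), `1 + |t + Im z| ≤ (1 + |t|)(1 + |Im z|)`, `E = ⌈E⌉₊`. -/
theorem rowBd (hA : StAll) (hG : StAllG) (hM : StMom) (l : ℤ) : ∃ E : ℕ, ∀ k : ℕ, ∃ C : ℝ, 0 ≤ C ∧
    ∀ (Y α ν μ t : ℝ) (c : O → ℂ), Par Y α (ν + μ - ee) → 0 ≤ ν → ν ≤ 246 / 1000 → Pp (Y ^ ν) c →
    Dv k c → RowBd (fun m => ¬ Cube m)
      (gam (cv c (pl l (Y ^ μ) t)) (Y ^ (ν + μ - ee)) (XX Y (ν + μ - ee))) (XX Y (ν + μ - ee))
      (Y ^ (ν + μ - ee)) (KK Y α (ν + μ - ee)) E (ph1 Y (C * (1 + |t|) ^ E)) (ph2 Y (C * (1 + |t|) ^ E)) := by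
  obtain ⟨E₀, C₀, hE₀, hC₀, hs⟩ := rows_small hG hM l
  refine ⟨⌈E₀⌉₊, fun k => ?_⟩
  obtain ⟨C₁, hC₁, hg⟩ := rows_gen hA (k + 1)
  obtain ⟨C₂, hC₂, hd⟩ := dn_le_ee k
  refine ⟨3 * C₁ + 64 * Real.exp 9 * C₀ * C₂ ^ 2, by positivity, ?_⟩
  intro Y α ν μ t c hP hν0 hν hc hD r h U z S hr hrX hh hhr hU hz hS
  have hY := hP.pos
  have he := ee_eq
  have hK : 0 < KK Y α (ν + μ - ee) := Real.rpow_pos_of_pos hY _
  have hv : 0 < U / KK Y α (ν + μ - ee) := div_pos (by linarith) hK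
  have hr1 : 1 ≤ nm r := one_le_nm hr.1.ne_zero
  have hL : 0 < LL Y := Real.rpow_pos_of_pos hY _
  have hW : 0 < Y ^ (7 / 6 + 100 * ee) := Real.rpow_pos_of_pos hY _
  have hT : 1 ≤ (1 + |z.im|) ^ ⌈E₀⌉₊ * (1 + |t|) ^ ⌈E₀⌉₊ :=
    one_le_mul_of_one_le_of_one_le (one_le_pow₀ (by linarith [abs_nonneg z.im]))
      (one_le_pow₀ (by linarith [abs_nonneg t]))
  have hw := wv_nonneg hv.le
  have hgen := hg Y α _ U _ r h z S hP (supp_gam _ _ _) (dv_gam hD l (Y ^ μ) t _ _) hr hrX hU hz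
    fun m hm => ⟨(hS m hm).1, (hS m hm).2.1⟩
  suffices H : ∑ m ∈ S, ‖RS (gam (cv c (pl l (Y ^ μ) t)) (Y ^ (ν + μ - ee)) (XX Y (ν + μ - ee)))
      (XX Y (ν + μ - ee)) (Y ^ (ν + μ - ee)) r h m z‖ ^ 2 ≤
      (3 * C₁ + 64 * Real.exp 9 * C₀ * C₂ ^ 2) * ((1 + |z.im|) ^ ⌈E₀⌉₊ * (1 + |t|) ^ ⌈E₀⌉₊) *
        (Y ^ (7 / 6 + 100 * ee) * (max (nm r) (LL Y) ^ (-2 : ℝ) *
          (U / KK Y α (ν + μ - ee)) ^ (1 / 3 : ℝ) +
          max (nm r) (LL Y) ^ (-(4 / 3) : ℝ) * wv (U / KK Y α (ν + μ - ee)))) by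
    refine H.trans (le_of_eq ?_)
    rw [ph1, ph2, wv]
    ring
  have hC3 : 3 * C₁ ≤ (3 * C₁ + 64 * Real.exp 9 * C₀ * C₂ ^ 2) *
      ((1 + |z.im|) ^ ⌈E₀⌉₊ * (1 + |t|) ^ ⌈E₀⌉₊) :=
    le_trans (le_add_of_nonneg_right (by positivity))
      (le_mul_of_one_le_right (by positivity) hT)
  have hv3 : 0 ≤ (U / KK Y α (ν + μ - ee)) ^ (1 / 3 : ℝ) := Real.rpow_nonneg hv.le _
  rcases le_or_gt (LL Y) (nm r) with hLr | hLr
  · rw [max_eq_left hLr]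
    have h1 := rpow_le_wv hv (θ := 1 + ee) (by linarith) (by linarith)
    have h2 := rpow_le_wv hv (θ := 2 / 3 + ee) (by linarith) (by linarith)
    have h3 : 0 ≤ nm r ^ (-2 : ℝ) := Real.rpow_nonneg (by linarith) _
    have h4 : 0 ≤ nm r ^ (-(4 / 3) : ℝ) := Real.rpow_nonneg (by linarith) _
    refine hgen.trans (le_trans ?_ (mul_le_mul_of_nonneg_right hC3 (by positivity)))
    have h5 : nm r ^ (-2 : ℝ) * (U / KK Y α (ν + μ - ee)) ^ (1 / 3 : ℝ) + nm r ^ (-(4 / 3) : ℝ) *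
        ((U / KK Y α (ν + μ - ee)) ^ (1 + ee) + (U / KK Y α (ν + μ - ee)) ^ (2 / 3 + ee)) ≤
        3 * (nm r ^ (-2 : ℝ) * (U / KK Y α (ν + μ - ee)) ^ (1 / 3 : ℝ) +
          nm r ^ (-(4 / 3) : ℝ) * wv (U / KK Y α (ν + μ - ee))) := by
      have h6 := mul_le_mul_of_nonneg_left (add_le_add h1 h2) h4
      have h7 := mul_nonneg h3 hv3
      have h8 := mul_nonneg h4 hw
      linarith
    refine (mul_le_mul_of_nonneg_left h5 (by positivity)).trans (le_of_eq ?_)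
    ring
  rw [max_eq_right hLr.le]
  have h3 : 0 ≤ LL Y ^ (-2 : ℝ) := Real.rpow_nonneg hL.le _
  have h4 : 0 ≤ LL Y ^ (-(4 / 3) : ℝ) := Real.rpow_nonneg hL.le _
  rcases lt_or_ge Y U with hYU | hYU
  · refine hgen.trans (le_trans ?_ (mul_le_mul_of_nonneg_right hC3 (by positivity)))
    have h1 := rwb_far hP hYU (θ := 1 / 3) (by norm_num)
    have h2 := rwb_far hP hYU (θ := 1 + ee) (by linarith)
    have h2' := rwb_far hP hYU (θ := 2 / 3 + ee) (by linarith)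
    have a1 : nm r ^ (-2 : ℝ) ≤ 1 := Real.rpow_le_one_of_one_le_of_nonpos hr1 (by norm_num)
    have a2 : nm r ^ (-(4 / 3) : ℝ) ≤ 1 := Real.rpow_le_one_of_one_le_of_nonpos hr1 (by norm_num)
    have h5 : nm r ^ (-2 : ℝ) * (U / KK Y α (ν + μ - ee)) ^ (1 / 3 : ℝ) + nm r ^ (-(4 / 3) : ℝ) *
        ((U / KK Y α (ν + μ - ee)) ^ (1 + ee) + (U / KK Y α (ν + μ - ee)) ^ (2 / 3 + ee)) ≤
        3 * (LL Y ^ (-2 : ℝ) * (U / KK Y α (ν + μ - ee)) ^ (1 / 3 : ℝ) +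
          LL Y ^ (-(4 / 3) : ℝ) * wv (U / KK Y α (ν + μ - ee))) := by
      have h6 := mul_le_of_le_one_left hv3 a1
      have h7 := mul_le_of_le_one_left (add_nonneg (Real.rpow_nonneg hv.le (1 + ee))
        (Real.rpow_nonneg hv.le (2 / 3 + ee))) a2
      have h8 := mul_nonneg h3 hv3
      linarith
    refine (mul_le_mul_of_nonneg_left h5 (by positivity)).trans (le_of_eq ?_)
    ring
  have hN : 0 < Y ^ ν := Real.rpow_pos_of_pos hY _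
  have hM' : 0 < Y ^ μ := Real.rpow_pos_of_pos hY _
  have hB : 0 < Y ^ (ν + μ - ee) := Real.rpow_pos_of_pos hY _
  have hYe : 0 < Y ^ ee := Real.rpow_pos_of_pos hY _
  obtain ⟨κ, hκ, hκ'⟩ := twist_cv l hM' hN hB t z
  have hκ2 : ‖κ‖ ^ 2 ≤ Y ^ (6 * ee) * Real.exp 9 := by
    have e1 : Y ^ ν * Y ^ μ / Y ^ (ν + μ - ee) = Y ^ ee := by
      rw [← Real.rpow_add hY, ← Real.rpow_sub hY]
      congr 1
      ring
    have e2 : z.re ^ 2 ≤ 9 := by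
      have := sq_le_sq' (abs_le.1 hz).1 (abs_le.1 hz).2
      linarith
    rw [hκ, e1, mul_pow, ← Real.exp_nat_mul, ← Real.rpow_mul hY.le, ← Real.rpow_natCast,
      ← Real.rpow_mul hY.le]
    refine mul_le_mul (hP.mono ?_) (Real.exp_le_exp.2 ?_) (Real.exp_pos _).le
      (Real.rpow_nonneg hY.le _)
    · have := mul_le_mul_of_nonneg_left (abs_le.1 hz).2 ee_pos.le
      push_cast
      linarith
    · push_cast
      linarith
  have hsm := hs Y α ν μ U (Y ^ μ * Real.exp z.re) (t + z.im) (8 * C₂ * Y ^ ee)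
    (fun n => c n * ((nm n / Y ^ ν : ℝ) : ℂ) ^ z) r h S hP hν0 hν
    (mul_le_mul_of_nonneg_left (Real.exp_le_exp.2 (abs_le.1 hz).1) hM'.le)
    (mul_le_mul_of_nonneg_left (Real.exp_le_exp.2 (abs_le.1 hz).2) hM'.le) (by positivity)
    (fun n hn => hc n (left_ne_zero_of_mul hn))
    (rwb_tw hP (fun n hn => hd Y n hP.one hn) (by linarith) hν hc hD hz) hr hLr.le hhr hU hYU hS
  have hRS : ∀ m, RS (gam (cv c (pl l (Y ^ μ) t)) (Y ^ (ν + μ - ee)) (XX Y (ν + μ - ee)))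
      (XX Y (ν + μ - ee)) (Y ^ (ν + μ - ee)) r h m z = κ * ∑ n ∈ ball (XX Y (ν + μ - ee)),
      gam (cv (fun n => c n * ((nm n / Y ^ ν : ℝ) : ℂ) ^ z) (pl l (Y ^ μ * Real.exp z.re) (t + z.im)))
        (Y ^ (ν + μ - ee)) (XX Y (ν + μ - ee)) (r * n) * cb (m * h) n := by
    intro m
    rw [RS, Finset.mul_sum]
    refine Finset.sum_congr rfl fun n _ => ?_
    rw [gam, gam]
    split_ifs
    · rw [mul_right_comm, hκ', mul_assoc]
    · simp only [zero_mul, mul_zero]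
  simp only [hRS, norm_mul, mul_pow, ← Finset.mul_sum]
  have hE : (1 + |t + z.im|) ^ E₀ ≤ (1 + |z.im|) ^ ⌈E₀⌉₊ * (1 + |t|) ^ ⌈E₀⌉₊ := by
    have a1 := abs_nonneg t
    have a2 := abs_nonneg z.im
    have a3 := abs_add_le t z.im
    have a4 := abs_nonneg (t + z.im)
    rw [← mul_pow, ← Real.rpow_natCast]
    calc (1 + |t + z.im|) ^ E₀ ≤ (1 + |t + z.im|) ^ (⌈E₀⌉₊ : ℝ) :=
          Real.rpow_le_rpow_of_exponent_le (by linarith) (Nat.le_ceil _)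
      _ ≤ _ := Real.rpow_le_rpow (by linarith) (by nlinarith) (Nat.cast_nonneg _)
  have hYY : Y ^ (6 * ee) * (Y ^ ee * Y ^ ee) * Y ^ (7 / 6 + 50 * ee) ≤ Y ^ (7 / 6 + 100 * ee) := by
    rw [← Real.rpow_add hY, ← Real.rpow_add hY, ← Real.rpow_add hY]
    exact hP.mono (by linarith)
  have hQ : 0 ≤ LL Y ^ (-2 : ℝ) * (U / KK Y α (ν + μ - ee)) ^ (1 / 3 : ℝ) +
      LL Y ^ (-(4 / 3) : ℝ) * wv (U / KK Y α (ν + μ - ee)) := by positivity
  refine (mul_le_mul hκ2 hsm (Finset.sum_nonneg fun _ _ => sq_nonneg _) (by positivity)).trans ?_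
  generalize LL Y ^ (-2 : ℝ) * (U / KK Y α (ν + μ - ee)) ^ (1 / 3 : ℝ) +
      LL Y ^ (-(4 / 3) : ℝ) * wv (U / KK Y α (ν + μ - ee)) = Q at hQ
  have h50 : 0 < Y ^ (7 / 6 + 50 * ee) := Real.rpow_pos_of_pos hY _
  have h6 : 0 < Y ^ (6 * ee) := Real.rpow_pos_of_pos hY _
  calc _ = (64 * Real.exp 9 * C₀ * C₂ ^ 2) * (1 + |t + z.im|) ^ E₀ *
        (Y ^ (6 * ee) * (Y ^ ee * Y ^ ee) * Y ^ (7 / 6 + 50 * ee) * Q) := by ring
    _ ≤ _ := by
      gcongr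
      exact le_add_of_nonneg_left (by positivity)

end Crest.Agent.R12.QA
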