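import Crest.Agent.R12.QA.Gen

/-! Row 12, block QA: the column, twists and tails. -/

set_option autoImplicit false

namespace Crest.Agent.R12.QA

open Crest.Agent.R17
open Crest.Agent.R17.M2 (cv Tq Dec Mu)
open scoped ComplexConjugate

variable {l : ℤ} {M t N G B X : ℝ} {c f : O → ℂ}

theorem norm_pl_le (l : ℤ) (M t : ℝ) (n : O) : ‖pl l M t n‖ ≤ LW 1 M (nm n) := by
  rw [pl, norm_mul, norm_LN_eq_LW]
  exact mul_le_of_le_one_left (LW_pos _ _ _).le (bla_norm_le n l)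

/-- `M2.Maj.dec` with `Maj 1 M 1` -/
theorem dec_pl (l : ℤ) (hM : 0 < M) (t : ℝ) : Dec (pl l M t) := by
  refine M2.Maj.dec (a := 1) (X := M) (B := 1) (fun n _ => ?_) one_pos hM zero_le_one
  rw [one_mul, norm_LN_eq_LW]
  exact norm_pl_le l M t n

/-- finite support (`summable_of_finite_support`, `finite_nm_le`) -/
theorem Pp.dec (h : Pp N c) : Dec c := by
  intro σ
  refine summable_of_hasFiniteSupport (((finite_nm_le (2 * N)).preimage
    (Subtype.val_injective (p := fun n => n ∈ Pr)).injOn).subset fun n hn => ?_)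
  exact (h n fun h0 => hn (by simp [h0])).2.2

theorem supp_gam (f : O → ℂ) (B X : ℝ) : Supp (gam f B X) B X := by
  intro b hb
  by_contra h
  exact hb (if_neg h)

theorem norm_cv_le (hc : ∀ n, ‖c n‖ ≤ G) (l : ℤ) (M t : ℝ) {b : O} (hb : Prim b) :
    ‖cv c (pl l M t) b‖ ≤ G * dn b := by
  rw [← R12.card_anti hb, mul_comm, ← nsmul_eq_mul, ← Finset.sum_const]
  refine norm_sum_le_of_le _ fun p _ => ?_
  rw [norm_mul]
  exact (mul_le_of_le_one_right (norm_nonneg _)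
    ((norm_pl_le l M t p.2).trans (LW_le_one _ _ _))).trans (hc _)

/-- `card_anti`, `dn_le_of_dvd` -/
theorem dv_gam {k : ℕ} (hc : Dv k c) (l : ℤ) (M t B X : ℝ) : Dv (k + 1) (gam (cv c (pl l M t)) B X) := by
  intro b
  rw [gam]
  split_ifs with h
  · rw [pow_succ', ← R12.card_anti h.1.1, ← nsmul_eq_mul, ← Finset.sum_const,
      R12.card_anti h.1.1]
    refine norm_sum_le_of_le _ fun p hp => ?_
    rw [norm_mul]
    refine (mul_le_of_le_one_right (norm_nonneg _)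
      ((norm_pl_le l M t p.2).trans (LW_le_one _ _ _))).trans ((hc _).trans ?_)
    exact pow_le_pow_left₀ (dn_nonneg _)
      (dn_le_of_dvd h.1.ne_zero ⟨p.2, (mem_anti.1 hp).2.2.symm⟩) k
  · rw [norm_zero]
    exact pow_nonneg (dn_nonneg _) _

/-- `al_mul`, `mul_zpow`, `LN_mul_arg`, `tsum_mul_left`, `norm_al` -/
theorem norm_Tq_pl (l : ℤ) (M t : ℝ) {E : O} (hE : E ≠ 0) (k : O) :
    ‖Tq (pl l M t) E (cb k)‖ = ‖PSc l k (M / nm E) t‖ := by
  have e : Tq (pl l M t) E (cb k) = al E ^ l * PSc l k (M / nm E) t := by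
    rw [Tq, PSc, ← tsum_mul_left]
    refine tsum_congr fun m => ?_
    rw [pl, pl, al_mul, mul_zpow, nm_mul, LN_mul_arg]
    ring
  rw [e, norm_mul, norm_zpow, norm_al hE, one_zpow, one_mul]

/-- `(N (m n) / B) ^ z = (N m / N) ^ z · (N / B) ^ z · (N n) ^ z`, `LN_mul_cpow` -/
theorem twist_cv (l : ℤ) (hM : 0 < M) (hN : 0 < N) (hB : 0 < B) (t : ℝ) (z : ℂ) : ∃ κ : ℂ,
    ‖κ‖ = (N * M / B) ^ z.re * Real.exp (z.re ^ 2 / 2) ∧ ∀ (c : O → ℂ) (b : O),
      cv c (pl l M t) b * ((nm b / B : ℝ) : ℂ) ^ z =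
        κ * cv (fun n => c n * ((nm n / N : ℝ) : ℂ) ^ z) (pl l (M * Real.exp z.re) (t + z.im)) b := by
  refine ⟨((N / B : ℝ) : ℂ) ^ z * ((M : ℂ) ^ z * Complex.exp (((z.re ^ 2 / 2 : ℝ) : ℂ) +
    Complex.I * ((z.re * (t + z.im) : ℝ) : ℂ))), ?_, fun c b => ?_⟩
  · rw [norm_mul, norm_mul, Complex.norm_exp, Complex.norm_cpow_eq_rpow_re_of_pos (by positivity),
      Complex.norm_cpow_eq_rpow_re_of_pos hM, ← mul_assoc,
      ← Real.mul_rpow (by positivity) hM.le, div_mul_eq_mul_div]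
    simp only [Complex.add_re, Complex.ofReal_re, Complex.mul_re, Complex.I_re, zero_mul,
      Complex.I_im, Complex.ofReal_im, mul_zero, sub_self, add_zero]
  · rw [cv, cv, Finset.sum_mul, Finset.mul_sum]
    refine Finset.sum_congr rfl fun p hp => ?_
    obtain ⟨h1, h2, h3⟩ := mem_anti.1 hp
    have i1 := nm_pos h1.ne_zero
    have i2 := nm_pos h2.ne_zero
    have e1 : nm b / B = nm p.1 / N * (N / B * nm p.2) := by
      rw [← h3, nm_mul]
      field_simp
    have e2 := LN_mul_cpow one_pos hM i2 t z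
    simp only [one_pow, one_mul] at e2
    rw [e1, Complex.ofReal_mul, Complex.mul_cpow_ofReal_nonneg (by positivity) (by positivity),
      Complex.ofReal_mul, Complex.mul_cpow_ofReal_nonneg (by positivity) i2.le, pl, pl]
    linear_combination (c p.1 * al p.2 ^ l * ((nm p.1 / N : ℝ) : ℂ) ^ z *
      ((N / B : ℝ) : ℂ) ^ z) * e2

theorem twb_exp {Y α β : ℝ} (h : Par Y α β) : Real.exp 3 ≤ Y ^ (ee / 2) := by
  have h1 : Real.exp 3 ≤ 21 := by
    have e : Real.exp 3 = Real.exp 1 ^ 3 := by rw [← Real.exp_nat_mul]; norm_num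
    have := Real.exp_one_lt_d9
    rw [e]
    calc _ ≤ (2.7182818286 : ℝ) ^ 3 := pow_le_pow_left₀ (Real.exp_pos _).le this.le 3
      _ ≤ 21 := by norm_num
  have h2 : Y ^ (ee / 2) * Y ^ (ee / 2) = Y ^ ee := by
    rw [← Real.rpow_add h.pos]; congr 1; ring
  have h3 := h.big
  have h4 := Real.rpow_pos_of_pos h.pos (ee / 2)
  nlinarith

/-- the second factor of a far product is far -/
theorem twb_far {Y α ν μ x y : ℝ} (h : Par Y α (ν + μ - ee)) (h1 : Y ^ μ * Real.exp (-3) ≤ M)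
    (h2 : M ≤ Y ^ μ * Real.exp 3) (hx1 : Y ^ ν ≤ x) (hx2 : x ≤ 2 * Y ^ ν) (hy : 0 ≤ y)
    (hf : ¬ (Y ^ (ν + μ - ee) < x * y ∧ x * y ≤ XX Y (ν + μ - ee))) :
    y ≤ M * Y ^ (-(ee / 2)) ∨ M * Y ^ (ee / 2) ≤ y := by
  have hY := h.pos
  have he := twb_exp h
  have hb := h.big
  have pν := Real.rpow_pos_of_pos hY ν
  have pμ := Real.rpow_pos_of_pos hY μ
  set E := Y ^ (ee / 2) with hE
  have pE : 0 < E := Real.rpow_pos_of_pos hY _
  have hEE : Y ^ ee = E * E := by rw [hE, ← Real.rpow_add hY]; congr 1; ring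
  rw [not_and_or, not_lt, not_le] at hf
  rcases hf with hf | hf
  · left
    have e1 : Y ^ (ν + μ - ee) = Y ^ ν * (Y ^ μ * E⁻¹ * E⁻¹) := by
      rw [Real.rpow_sub hY, Real.rpow_add hY, hEE]
      field_simp
    have e2 : y ≤ Y ^ μ * E⁻¹ * E⁻¹ := by
      refine le_of_mul_le_mul_left ?_ pν
      rw [← e1]
      exact (mul_le_mul_of_nonneg_right hx1 hy).trans hf
    rw [Real.rpow_neg hY.le, ← hE]
    refine e2.trans (mul_le_mul_of_nonneg_right (le_trans ?_ h1) (inv_pos.2 pE).le)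
    rw [Real.exp_neg]
    exact mul_le_mul_of_nonneg_left (inv_anti₀ (Real.exp_pos _) he) pμ.le
  · right
    have e1 : XX Y (ν + μ - ee) = Y ^ ν * (Y ^ μ * Y ^ ee * Y ^ ee) := by
      rw [XX, ← Real.rpow_add hY, ← Real.rpow_add hY, ← Real.rpow_add hY]
      congr 1
      ring
    have e2 : Y ^ μ * Y ^ ee * Y ^ ee ≤ 2 * y := by
      refine le_of_mul_le_mul_left ?_ pν
      rw [← e1]
      refine hf.le.trans ((mul_le_mul_of_nonneg_right hx2 hy).trans (le_of_eq ?_))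
      ring
    have e3 : M * E ≤ Y ^ μ * Y ^ ee := by
      rw [hEE, ← mul_assoc]
      exact mul_le_mul_of_nonneg_right (h2.trans (mul_le_mul_of_nonneg_left he pμ.le)) pE.le
    have e4 : 0 < Y ^ μ * Y ^ ee := by positivity
    nlinarith

/-- `tl ≤ ∑_{m ∈ pball (2 N₀)} G ∑_{n far} LW 1 M (N n)`: for `N m ∈ [N₀, 2 N₀]` and `N (m n) ∉ (B, X]` one has
`N n ≤ M Y^(-ee/2)` or `M Y^(ee/2) ≤ N n` (`exp 3 ≤ 21 ≤ Y^(ee/2)`); bound finite partial sums
(`Real.tsum_le_of_sum_le`, `sum_anti_ball`-type exchange or `Finset.sum_sigma'` and an injection into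
`pball (2 N₀) ×ˢ _`), `LW_tail` with `θ = 0`, `J = 2`, `Z = Y`. -/
theorem tl_le : ∃ C : ℝ, 0 ≤ C ∧ ∀ (l : ℤ) (Y α ν μ M t G : ℝ) (c : O → ℂ), Par Y α (ν + μ - ee) → 0 ≤ ν →
    ν ≤ 246 / 1000 → Y ^ μ * Real.exp (-3) ≤ M → M ≤ Y ^ μ * Real.exp 3 → Pp (Y ^ ν) c →
    (∀ n, ‖c n‖ ≤ G) →
    tl (cv c (pl l M t)) (Y ^ (ν + μ - ee)) (XX Y (ν + μ - ee)) ≤ C * G / Y := by
  classical
  obtain ⟨C, hC, H⟩ := LW_tail 0 2 (ee / 2) (half_pos ee_pos)
  refine ⟨22 * C, by positivity, fun l Y α ν μ M t G c h hν0 hν h1 h2 hc hG => ?_⟩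
  have hY := h.pos
  have hG0 : 0 ≤ G := (norm_nonneg _).trans (hG 0)
  have hM : 0 < M := lt_of_lt_of_le (by positivity) h1
  have hMY : M ≤ Y := by
    refine (h2.trans (mul_le_mul_of_nonneg_left (twb_exp h) (by positivity))).trans ?_
    rw [← Real.rpow_add hY]
    refine h.le ?_
    have := h.b2
    rw [ee_eq] at *
    linarith
  refine Real.tsum_le_of_sum_le (fun b => ?_) fun u => ?_
  · dsimp only [Pi.zero_apply]
    split_ifs
    · exact le_rfl
    · exact norm_nonneg _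
  set T : Finset (O × O) := u.biUnion fun b => anti (b : O) with hT
  set S : Finset O := (T.image Prod.snd).filter
    fun n => n ≠ 0 ∧ (nm n ≤ M * Y ^ (-(ee / 2)) ∨ M * Y ^ (ee / 2) ≤ nm n) with hS
  set W : Finset (O × O) := ball (2 * Y ^ ν) ×ˢ S with hW
  have hw : ∀ p : O × O, 0 ≤ G * LW 1 M (nm p.2) := fun p => mul_nonneg hG0 (LW_pos _ _ _).le
  have hw' : ∀ p : O × O, 0 ≤ if p ∈ W then G * LW 1 M (nm p.2) else 0 := fun p => by
    split_ifs
    · exact hw p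
    · exact le_rfl
  have s3 := H 1 M Y S one_pos one_le_two h.one hM hMY fun n hn => (Finset.mem_filter.1 hn).2
  simp only [abs_zero, Real.rpow_zero, one_mul] at s3
  have s4 : ((ball (2 * Y ^ ν)).card : ℝ) ≤ 22 * Y := by
    have := h.one_le hν0
    have := h.le (x := ν) (by linarith)
    have := card_ball_le (X := 2 * Y ^ ν) (by linarith)
    linarith
  calc _ ≤ ∑ b ∈ u, ∑ p ∈ anti (b : O), if p ∈ W then G * LW 1 M (nm p.2) else 0 := by
        refine Finset.sum_le_sum fun b hb => ?_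
        split_ifs with hf
        · exact Finset.sum_nonneg fun p _ => hw' p
        refine (norm_sum_le _ _).trans (Finset.sum_le_sum fun p hp => ?_)
        by_cases h0 : c p.1 = 0
        · rw [h0, zero_mul, norm_zero]
          exact hw' p
        obtain ⟨-, k1, k2⟩ := hc _ h0
        obtain ⟨-, q2, q3⟩ := mem_anti.1 hp
        have hpW : p ∈ W := by
          refine Finset.mem_product.2 ⟨mem_ball.2 k2, Finset.mem_filter.2
            ⟨Finset.mem_image_of_mem _ (Finset.mem_biUnion.2 ⟨b, hb, hp⟩), q2.ne_zero, ?_⟩⟩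
          refine twb_far h h1 h2 k1 k2 (nm_nonneg _) ?_
          rwa [← nm_mul, q3]
        rw [if_pos hpW, norm_mul]
        exact mul_le_mul (hG _) (norm_pl_le _ _ _ _) (norm_nonneg _) hG0
    _ = ∑ p ∈ T, if p ∈ W then G * LW 1 M (nm p.2) else 0 := by
        refine (Finset.sum_biUnion fun b _ b' _ hbb => ?_).symm
        refine Finset.disjoint_left.2 fun p hp hp' => hbb (Subtype.ext ?_)
        rw [← (mem_anti.1 hp).2.2, ← (mem_anti.1 hp').2.2]
    _ ≤ ∑ p ∈ W, G * LW 1 M (nm p.2) := by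
        rw [Finset.sum_ite_mem]
        exact Finset.sum_le_sum_of_subset_of_nonneg Finset.inter_subset_right fun p _ _ => hw p
    _ = (ball (2 * Y ^ ν)).card * (G * ∑ n ∈ S, LW 1 M (nm n)) := by
        rw [hW, Finset.sum_product]
        simp only [Finset.sum_const, nsmul_eq_mul, Finset.mul_sum]
    _ ≤ 22 * Y * (G * (C * Y ^ (-2 : ℝ))) :=
        mul_le_mul s4 (mul_le_mul_of_nonneg_left s3 hG0)
          (mul_nonneg hG0 (Finset.sum_nonneg fun n _ => (LW_pos _ _ _).le)) (by positivity)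
    _ = 22 * C * G / Y := by
        rw [Real.rpow_neg hY.le, Real.rpow_two]
        field_simp

end Crest.Agent.R12.QA
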